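import Vale.Agent.P098.Reg.Blow.Vary
import Vale.Agent.P098.Reg.Eps.Max

/-!
Limits of Lipschitz minimisers: almost everywhere convergence of the phases and of the gradients,
convergence of the energies and minimality of the limit.
-/

noncomputable section

namespace Vale.Agent.P098.Reg

open MeasureTheory Set Filter Topology Metric
open scoped ContDiff NNReal ENNReal RealInnerProductSpace

variable {d : ℕ}

theorem norm_fderiv_le_gradSq {f : Pt d → ℝ} (x : Pt d) :
    ‖fderiv ℝ f x‖ ≤ Real.sqrt (gradSq f x) := by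
  refine ContinuousLinearMap.opNorm_le_bound _ (Real.sqrt_nonneg _) fun v => ?_
  rw [fderiv_eq_sum_pd, Real.norm_eq_abs]
  refine (Eps.sum_sq_le _ _ _).trans (le_of_eq ?_)
  rw [← Eps.norm_sq_eq, Real.sqrt_sq (norm_nonneg _)]
  exact mul_comm _ _

theorem indic_one {f : Pt d → ℝ} {x : Pt d} (h : 0 < f x) :
    {y | 0 < f y}.indicator (fun _ => (1 : ℝ)) x = 1 :=
  indicator_of_mem (s := {y | 0 < f y}) h _

theorem indic_zero {f : Pt d → ℝ} {x : Pt d} (h : f x ≤ 0) :
    {y | 0 < f y}.indicator (fun _ => (1 : ℝ)) x = 0 :=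
  indicator_of_notMem (s := {y | 0 < f y}) (fun h' : 0 < f x => absurd h' (not_lt.2 h)) _

/-- Dominated convergence for the energy. -/
theorem tendsto_energy {f : ℕ → Pt d → ℝ} {g : Pt d → ℝ} {L : ℝ≥0}
    (hL : ∀ k, LipschitzWith L (f k))
    (hae : ∀ᵐ x, Tendsto (fun k => dens0 (f k) x) atTop (𝓝 (dens0 g x))) (c : Pt d) (R : ℝ) :
    Tendsto (fun k => energy (f k) c R) atTop (𝓝 (energy g c R)) := by
  have : IsFiniteMeasure (volume.restrict (ball c R)) :=
    isFiniteMeasure_restrict.2 measure_ball_lt_top.ne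
  refine tendsto_integral_of_dominated_convergence (fun _ => (d : ℝ) * (L : ℝ) ^ 2 + 1) (fun k => ?_)
    (integrable_const _) (fun k => Eventually.of_forall fun x => ?_) (ae_restrict_of_ae hae)
  · refine (Measurable.add ?_ ?_).aestronglyMeasurable
    · exact Finset.measurable_sum _ fun i _ =>
        (measurable_fderiv_apply_const ℝ (f k) _).pow_const 2
    · exact measurable_const.indicator (measurableSet_lt measurable_const (hL k).continuous.measurable)
  · have h0 : 0 ≤ {y | 0 < f k y}.indicator (fun _ => (1 : ℝ)) x :=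
      indicator_nonneg (fun _ _ => zero_le_one) x
    have h1 : {y | 0 < f k y}.indicator (fun _ => (1 : ℝ)) x ≤ 1 :=
      indicator_apply_le' (fun _ => le_rfl) fun _ => zero_le_one
    have h2 : 0 ≤ gradSq (f k) x := Finset.sum_nonneg fun _ _ => sq_nonneg _
    have h3 : gradSq (f k) x ≤ (d : ℝ) * (L : ℝ) ^ 2 := by
      refine (Finset.sum_le_sum fun i _ => (sq_abs (pd i (f k) x)).symm.le.trans
        (pow_le_pow_left₀ (abs_nonneg _) (abs_pd_le_lip (hL k) i x) 2)).trans ?_
      simp
    rw [Real.norm_eq_abs, abs_of_nonneg (add_nonneg h2 h0)]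
    linarith

/-- Extraction of a locally uniformly convergent subsequence. -/
theorem exists_limit {K : ℝ≥0} {u : ℕ → Pt d → ℝ} (hu : ∀ k, LipschitzWith K (u k))
    (h0 : ∀ k, u k 0 = 0) :
    ∃ (ψ : ℕ → ℕ) (w : Pt d → ℝ), StrictMono ψ ∧ LipschitzWith K w ∧
      TendstoLocallyUniformly (fun k => u (ψ k)) w atTop := by
  let q := TopologicalSpace.denseSeq (Pt d)
  have hmem : ∀ k, (fun n => u k (q n)) ∈
      univ.pi fun n => closedBall (0 : ℝ) ((K : ℝ) * ‖q n‖) := fun k n _ => by
    have := (hu k).dist_le_mul (q n) 0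
    rw [h0 k, dist_zero_right, dist_zero_right] at this
    rw [mem_closedBall, dist_zero_right]
    exact this
  obtain ⟨a, -, ψ, hψ, ha⟩ :=
    (isCompact_univ_pi fun _ => isCompact_closedBall _ _).tendsto_subseq hmem
  have hq : ∀ n, CauchySeq fun k => u (ψ k) (q n) := fun n => (tendsto_pi_nhds.1 ha n).cauchySeq
  have hcau : ∀ x, CauchySeq fun k => u (ψ k) x := fun x => by
    refine Metric.cauchySeq_iff.2 fun e he => ?_
    obtain ⟨n, hn⟩ := (TopologicalSpace.denseRange_denseSeq (Pt d)).exists_dist_lt x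
      (show 0 < e / (3 * ((K : ℝ) + 1)) by positivity)
    obtain ⟨N, hN⟩ := Metric.cauchySeq_iff.1 (hq n) (e / 3) (by positivity)
    refine ⟨N, fun i hi j hj => ?_⟩
    have hK : (K : ℝ) * dist x (q n) ≤ e / 3 :=
      calc (K : ℝ) * dist x (q n) ≤ ((K : ℝ) + 1) * (e / (3 * ((K : ℝ) + 1))) :=
            mul_le_mul (by linarith) hn.le dist_nonneg (by positivity)
        _ = e / 3 := by field_simp
    calc dist (u (ψ i) x) (u (ψ j) x)
        ≤ dist (u (ψ i) x) (u (ψ i) (q n)) + dist (u (ψ i) (q n)) (u (ψ j) (q n)) +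
            dist (u (ψ j) (q n)) (u (ψ j) x) := dist_triangle4 _ _ _ _
      _ < e / 3 + e / 3 + e / 3 := by
            have h1 := ((hu (ψ i)).dist_le_mul x (q n)).trans hK
            have h2 : dist (u (ψ j) (q n)) (u (ψ j) x) ≤ e / 3 :=
              ((hu (ψ j)).dist_le_mul (q n) x).trans (by rwa [dist_comm])
            linarith [hN i hi j hj]
      _ = e := by ring
  choose w hw using fun x => cauchySeq_tendsto_of_complete (hcau x)
  have hwL : LipschitzWith K w := LipschitzWith.of_dist_le_mul fun x y =>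
    le_of_tendsto ((hw x).dist (hw y)) (Eventually.of_forall fun k => (hu (ψ k)).dist_le_mul x y)
  refine ⟨ψ, w, hψ, hwL, Metric.tendstoLocallyUniformly_iff.2 fun e he x => ?_⟩
  refine ⟨ball x (e / (3 * ((K : ℝ) + 1))), ball_mem_nhds _ (by positivity), ?_⟩
  filter_upwards [Metric.tendsto_nhds.1 (hw x) (e / 3) (by positivity)] with k hk y hy
  have hK : (K : ℝ) * dist y x ≤ e / 3 :=
    calc (K : ℝ) * dist y x ≤ ((K : ℝ) + 1) * (e / (3 * ((K : ℝ) + 1))) :=
          mul_le_mul (by linarith) (mem_ball.1 hy).le dist_nonneg (by positivity)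
      _ = e / 3 := by field_simp
  calc dist (w y) (u (ψ k) y) ≤ dist (w y) (w x) + dist (w x) (u (ψ k) x) +
        dist (u (ψ k) x) (u (ψ k) y) := dist_triangle4 _ _ _ _
    _ < e / 3 + e / 3 + e / 3 := by
          have h1 := (hwL.dist_le_mul y x).trans hK
          have h2 : dist (u (ψ k) x) (u (ψ k) y) ≤ e / 3 :=
            ((hu (ψ k)).dist_le_mul x y).trans (by rwa [dist_comm])
          rw [dist_comm] at hk
          linarith
    _ = e := by ring

/-- What passes to the limit along a locally uniformly convergent sequence of minimisers. -/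
theorem ae_phases (hB : Basics d) {K : ℝ≥0} {v : ℕ → Pt d → ℝ} {w : Pt d → ℝ}
    (hv : ∀ k, LMin (v k)) (hw : LipschitzWith K w) (hw0 : ∀ x, 0 ≤ w x)
    (hlim : TendstoLocallyUniformly v w atTop) :
    ∀ᵐ x, (0 < w x ∧ ∀ i, Tendsto (fun k => pd i (v k) x) atTop (𝓝 (pd i w x))) ∨
      (w x = 0 ∧ ∀ᶠ k in atTop, ∀ᶠ y in 𝓝 x, v k y = 0 ∧ w y = 0) := by
  obtain ⟨c, hc, hnd⟩ := hB.nondeg
  have hK : ∀ S, IsCompact S → TendstoUniformlyOn v w atTop S :=
    tendstoLocallyUniformly_iff_forall_isCompact.1 hlim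
  have hpt : ∀ x, Tendsto (fun k => v k x) atTop (𝓝 (w x)) := fun x =>
    (tendstoLocallyUniformlyOn_univ.2 hlim).tendsto_at (mem_univ x)
  have hop : IsOpen {x | 0 < w x} := isOpen_lt continuous_const hw.continuous
  -- nondegeneracy of the limit
  have hgrow : ∀ x ∈ closure {x | 0 < w x}, ∀ r : ℝ, 0 < r →
      ∃ y ∈ closedBall x r, c * r / 2 ≤ w y := by
    intro x hx r hr
    by_contra! hcon
    have hzero : ∀ y ∈ ball x (r / 2), w y = 0 := fun y hy => by
      refine tendsto_nhds_unique (hpt y) (tendsto_const_nhds.congr' ?_)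
      filter_upwards [Metric.tendstoUniformlyOn_iff.1 (hK _ (isCompact_closedBall x r)) (c * r / 2)
        (by positivity)] with k hk
      refine (hnd (v k) (hv k) x r hr (fun z hz => ?_) y hy).symm
      have h1 := hk z (ball_subset_closedBall hz)
      rw [Real.dist_eq, abs_lt] at h1
      linarith [hcon z (ball_subset_closedBall hz)]
    obtain ⟨z, hz, hzp⟩ := _root_.mem_closure_iff.1 hx _ isOpen_ball (mem_ball_self (half_pos hr))
    rw [Set.mem_ofPred_eq, hzero z hz] at hzp
    exact lt_irrefl _ hzp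
  -- the free boundary of the limit is null
  have hnull : volume (frontier {x | 0 < w x}) = 0 := by
    have hδ0 : 0 < c / (4 * ((K : ℝ) + 1)) := by positivity
    set δ := min (c / (4 * ((K : ℝ) + 1))) 1 with hδdef
    have hδ : 0 < δ := lt_min hδ0 one_pos
    set F := frontier {x | 0 < w x} with hF
    set B0 : ℝ≥0∞ := volume (ball (0 : Pt d) 1) with hB0
    have hdens : ∀ x ∈ F, ∀ r : ℝ, 0 < r →
        volume.real (F ∩ closedBall x r) ≤ (1 - (δ / 2) ^ d) * volume.real (closedBall x r) := by
      intro x hx r hr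
      obtain ⟨y, hy, hwy⟩ := hgrow x (frontier_subset_closure hx) (r / 2) (half_pos hr)
      have hsub : ball y (δ * (r / 2)) ⊆ closedBall x r \ F := by
        intro z hz
        refine ⟨?_, fun hzF => ?_⟩
        · rw [mem_closedBall] at hy ⊢
          have h1 : δ * (r / 2) ≤ r / 2 :=
            mul_le_of_le_one_left (by positivity) (min_le_right _ _)
          linarith [dist_triangle z y x, mem_ball.1 hz]
        · rw [hF, hop.frontier_eq] at hzF
          refine hzF.2 ?_
          have h1 := hw.dist_le_mul z y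
          rw [Real.dist_eq, abs_le] at h1
          have h2 : (K : ℝ) * dist z y ≤ c * r / 8 := by
            calc (K : ℝ) * dist z y ≤ ((K : ℝ) + 1) * (c / (4 * ((K : ℝ) + 1)) * (r / 2)) :=
                  mul_le_mul (by linarith) ((mem_ball.1 hz).le.trans
                    (mul_le_mul_of_nonneg_right (min_le_left _ _) (by positivity)))
                    dist_nonneg (by positivity)
              _ = c * r / 8 := by field_simp; ring
          show 0 < w z
          nlinarith [mul_pos hc hr]
      have hvol : volume.real (ball y (δ * (r / 2))) = (δ / 2) ^ d * volume.real (closedBall x r) := by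
        rw [Measure.addHaar_real_closedBall _ _ hr.le, measureReal_def,
          Measure.addHaar_ball_of_pos _ _ (show 0 < δ * (r / 2) by positivity), ENNReal.toReal_mul,
          ENNReal.toReal_ofReal (by positivity), ← measureReal_def, finrank_euclideanSpace_fin]
        rw [show δ * (r / 2) = δ / 2 * r by ring, mul_pow]
        ring
      have hfin : volume (closedBall x r) ≠ ⊤ := measure_closedBall_lt_top.ne
      have h3 : volume.real (closedBall x r ∩ F) + volume.real (closedBall x r \ F) =
          volume.real (closedBall x r) :=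
        measureReal_inter_add_sdiff isClosed_frontier.measurableSet hfin
      have h4 : volume.real (ball y (δ * (r / 2))) ≤ volume.real (closedBall x r \ F) :=
        measureReal_mono hsub (ne_top_of_le_ne_top hfin (measure_mono sdiff_subset))
      rw [inter_comm]
      linarith
    by_contra hne
    obtain ⟨x, hxF, hx⟩ : ∃ x ∈ F, Tendsto
        (fun r => volume (F ∩ closedBall x r) / volume (closedBall x r)) (𝓝[>] 0) (𝓝 1) := by
      have h1 : ∀ᵐ x ∂volume.restrict F, x ∈ F ∧ Tendsto
          (fun r => volume (F ∩ closedBall x r) / volume (closedBall x r)) (𝓝[>] 0) (𝓝 1) :=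
        (ae_restrict_mem isClosed_frontier.measurableSet).and
          (Besicovitch.ae_tendsto_measure_inter_div volume F)
      have : NeBot (ae (volume.restrict F)) := ae_neBot.2 (mt Measure.restrict_eq_zero.1 hne)
      exact h1.exists
    have h2 : Tendsto (fun r => volume.real (F ∩ closedBall x r) / volume.real (closedBall x r))
        (𝓝[>] 0) (𝓝 1) := by
      have := (ENNReal.tendsto_toReal ENNReal.one_ne_top).comp hx
      simpa [Function.comp_def, measureReal_def, ENNReal.toReal_div] using this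
    have h3 : (1 : ℝ) ≤ 1 - (δ / 2) ^ d := by
      refine le_of_tendsto h2 ?_
      filter_upwards [self_mem_nhdsWithin] with r hr
      have hpos : 0 < volume.real (closedBall x r) :=
        ENNReal.toReal_pos (measure_closedBall_pos volume x hr).ne' measure_closedBall_lt_top.ne
      rw [div_le_iff₀ hpos]
      exact hdens x hxF r hr
    linarith [show (0 : ℝ) < (δ / 2) ^ d by positivity]
  filter_upwards [measure_eq_zero_iff_ae_notMem.1 hnull] with x hx
  rcases (hw0 x).eq_or_lt with hx0 | hx0
  · refine Or.inr ⟨hx0.symm, ?_⟩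
    rw [hop.frontier_eq] at hx
    have hcl : x ∉ closure {x | 0 < w x} := fun h => hx ⟨h, fun h' => (ne_of_gt h') hx0.symm⟩
    obtain ⟨r, hr, hball⟩ :=
      nhds_basis_closedBall.mem_iff.1 (isClosed_closure.isOpen_compl.mem_nhds hcl)
    have hwz : ∀ y ∈ closedBall x r, w y = 0 := fun y hy =>
      le_antisymm (not_lt.1 fun h => hball hy (subset_closure h)) (hw0 y)
    filter_upwards [Metric.tendstoUniformlyOn_iff.1 (hK _ (isCompact_closedBall x r)) (c * r)
      (by positivity)] with k hk
    filter_upwards [ball_mem_nhds x (half_pos hr)] with y hy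
    refine ⟨hnd (v k) (hv k) x r hr (fun z hz => ?_) y hy,
      hwz y (ball_subset_closedBall (ball_subset_ball (by linarith) hy))⟩
    have h1 := hk z (ball_subset_closedBall hz)
    rw [Real.dist_eq, hwz z (ball_subset_closedBall hz), abs_lt] at h1
    linarith
  · refine Or.inl ⟨hx0, fun i => ?_⟩
    obtain ⟨r, hr, hball⟩ := nhds_basis_closedBall.mem_iff.1 (hop.mem_nhds hx0)
    obtain ⟨z0, hz0, hmin⟩ := (isCompact_closedBall x r).exists_isMinOn
      ⟨x, mem_closedBall_self hr.le⟩ hw.continuous.continuousOn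
    have hev : ∀ᶠ k in atTop, ∀ y ∈ closedBall x r, 0 < v k y := by
      filter_upwards [Metric.tendstoUniformlyOn_iff.1 (hK _ (isCompact_closedBall x r)) (w z0)
        (hball hz0)] with k hk y hy
      have h1 := hk y hy
      rw [Real.dist_eq, abs_lt] at h1
      have h2 : w z0 ≤ w y := hmin hy
      linarith
    obtain ⟨N, hN⟩ := eventually_atTop.1 hev
    have hd : 0 < d := Fin.pos i
    let O : Set (Pt d) := ball x r
    have hdiff : ∀ k, N ≤ k → ∀ y ∈ O, ContDiffAt ℝ ∞ (v k) y := fun k hk y hy =>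
      (hB.smooth _ (hv k)).contDiffAt ((isOpen_lt continuous_const
        (hv k).lip.choose_spec.continuous).mem_nhds (hN k hk y (ball_subset_closedBall hy)))
    have hgrad : ∀ k m, N ≤ k → N ≤ m → ∀ M, (∀ y ∈ closedBall x (r / 2), |v k y - v m y| ≤ M) →
        ∀ y ∈ ball x (r / 4), ‖fderiv ℝ (v k) y - fderiv ℝ (v m) y‖
          ≤ Real.sqrt (4 * (6 + d) * M ^ 2 / (r / 2) ^ 2) := by
      intro k m hk hm M hM y hy
      have h2 : ∀ z ∈ O, ContDiffAt ℝ 2 (v k) z ∧ ContDiffAt ℝ 2 (v m) z := fun z hz =>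
        ⟨(hdiff k hk z hz).of_le (by norm_cast), (hdiff m hm z hz).of_le (by norm_cast)⟩
      have hyO : y ∈ O := ball_subset_ball (by linarith) hy
      have h := Eps.gradSq_le_of_harmonic hd (f := fun z => v k z - v m z) isOpen_ball
        (half_pos hr) (closedBall_subset_ball (by linarith) : closedBall x (r / 2) ⊆ O)
        (fun z hz => ((hdiff k hk z hz).sub (hdiff m hm z hz)).contDiffWithinAt)
        (fun z hz => by
          have e : (fun z => v k z - v m z) = fun z => v k z + (-1) * v m z := by funext; ring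
          rw [e, Eps.lap_add (h2 z hz).1 (contDiffAt_const.mul (h2 z hz).2),
            Eps.lap_const_mul (-1) (h2 z hz).2]
          simp only [Eps.lap, hB.harmonic _ (hv k) z (hN k hk z (ball_subset_closedBall hz)),
            hB.harmonic _ (hv m) z (hN m hm z (ball_subset_closedBall hz))]
          ring) hM y (by rwa [show r / 2 / 2 = r / 4 by ring])
      rw [← fderiv_fun_sub ((h2 y hyO).1.differentiableAt (by norm_num))
        ((h2 y hyO).2.differentiableAt (by norm_num))]
      exact (norm_fderiv_le_gradSq _).trans (Real.sqrt_le_sqrt h)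
    have hcau : UniformCauchySeqOn (fun k => fderiv ℝ (v k)) atTop (ball x (r / 4)) := by
      rw [Metric.uniformCauchySeqOn_iff]
      intro e he
      set A := Real.sqrt (4 * (6 + (d : ℝ))) / (r / 2) with hA
      have hA0 : 0 < A := div_pos (Real.sqrt_pos.2 (by positivity)) (half_pos hr)
      obtain ⟨M, hM⟩ := Metric.uniformCauchySeqOn_iff.1
        (hK _ (isCompact_closedBall x (r / 2))).uniformCauchySeqOn (e / (2 * A)) (by positivity)
      refine ⟨max M N, fun k hk m hm y hy => ?_⟩
      have h := hgrad k m (le_of_max_le_right hk) (le_of_max_le_right hm) (e / (2 * A))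
        (fun z hz => by
          have := hM k (le_of_max_le_left hk) m (le_of_max_le_left hm) z hz
          rw [Real.dist_eq] at this
          exact this.le) y hy
      rw [dist_eq_norm]
      refine lt_of_le_of_lt h ?_
      have hA2 : A ^ 2 = 4 * (6 + (d : ℝ)) / (r / 2) ^ 2 := by
        rw [hA, div_pow, Real.sq_sqrt (by positivity)]
      rw [show 4 * (6 + (d : ℝ)) * (e / (2 * A)) ^ 2 / (r / 2) ^ 2 = (A * (e / (2 * A))) ^ 2 by
        rw [mul_pow, hA2]; ring,
        Real.sqrt_sq (by positivity)]
      field_simp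
      linarith
    choose! G hG using fun y (hy : y ∈ ball x (r / 4)) =>
      cauchySeq_tendsto_of_complete (hcau.cauchySeq hy)
    have hu : TendstoUniformlyOn (fun k => fderiv ℝ (v (k + N))) G atTop (ball x (r / 4)) := by
      intro U hU
      exact (tendsto_add_atTop_nat N).eventually (hcau.tendstoUniformlyOn_of_tendsto hG U hU)
    have hxm : x ∈ ball x (r / 4) := mem_ball_self (by positivity)
    have hder := hasFDerivAt_of_tendstoUniformlyOn isOpen_ball hu
      (fun k y hy => ((hdiff (k + N) (Nat.le_add_left _ _) y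
        (ball_subset_ball (by linarith) hy)).differentiableAt (by norm_num)).hasFDerivAt)
      (fun y _ => (hpt y).comp (tendsto_add_atTop_nat N)) hxm
    simp only [pd, hder.fderiv]
    exact ((ContinuousLinearMap.apply ℝ ℝ (EuclideanSpace.single i (1 : ℝ))).continuous.tendsto _).comp
      (hG x hxm)

/-- The product of a compactly supported bounded Lipschitz cut-off and a Lipschitz function. -/
theorem lipschitz_cutoff_mul {χ f : Pt d → ℝ} {A L B : ℝ≥0} (hχ : LipschitzWith A χ)
    (h1 : ∀ x, |χ x| ≤ 1) (hf : LipschitzWith L f) (hB : ∀ x, χ x ≠ 0 → |f x| ≤ B) :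
    LipschitzWith (A * B + L) fun x => χ x * f x := by
  refine LipschitzWith.of_dist_le_mul fun x y => ?_
  simp only [Real.dist_eq, NNReal.coe_add, NNReal.coe_mul]
  have key : ∀ a b : Pt d, χ a ≠ 0 → |χ a * f a - χ b * f b| ≤ ((A : ℝ) * B + L) * dist a b := by
    intro a b ha
    have e : χ a * f a - χ b * f b = (χ a - χ b) * f a + χ b * (f a - f b) := by ring
    have g1 := hχ.dist_le_mul a b
    have g2 := hf.dist_le_mul a b
    rw [Real.dist_eq] at g1 g2
    calc |χ a * f a - χ b * f b| ≤ |χ a - χ b| * |f a| + |χ b| * |f a - f b| := by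
          rw [e, ← abs_mul, ← abs_mul]; exact abs_add_le _ _
      _ ≤ (A * dist a b) * B + 1 * (L * dist a b) :=
          add_le_add (mul_le_mul g1 (hB a ha) (abs_nonneg _) (by positivity))
            (mul_le_mul (h1 b) g2 (abs_nonneg _) zero_le_one)
      _ = _ := by ring
  by_cases hx : χ x = 0
  · by_cases hy : χ y = 0
    · simp only [hx, hy, zero_mul, sub_zero, abs_zero]; positivity
    · rw [abs_sub_comm, dist_comm]; exact key y x hy
  · exact key x y hx

/-- Module C: compactness. -/
theorem compactness (hB : Basics d) : Compactness d := by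
  intro u hu hu0
  obtain ⟨K, hK⟩ := hB.lip
  have hlip : ∀ k, LipschitzWith K (u k) := fun k => hK _ (hu k) ⟨0, hu0 k⟩
  obtain ⟨ψ, w, hψ, hwL, hlim⟩ := exists_limit hlip hu0
  have hpt : ∀ x, Tendsto (fun k => u (ψ k) x) atTop (𝓝 (w x)) := fun x =>
    (tendstoLocallyUniformlyOn_univ.2 hlim).tendsto_at (mem_univ x)
  have hw0 : ∀ x, 0 ≤ w x := fun x =>
    ge_of_tendsto (hpt x) (Eventually.of_forall fun k => (hu (ψ k)).nonneg x)
  have hw00 : w 0 = 0 := tendsto_nhds_unique (hpt 0) (by simp [hu0])
  have hph := ae_phases hB (fun k => hu (ψ k)) hwL hw0 hlim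
  have hgrad : ∀ᵐ x, ∀ i, Tendsto (fun k => pd i (u (ψ k)) x) atTop (𝓝 (pd i w x)) := by
    filter_upwards [hph] with x hx i
    rcases hx with ⟨-, hg⟩ | ⟨-, hev⟩
    · exact hg i
    · refine tendsto_const_nhds.congr' ?_
      filter_upwards [hev] with k hk
      exact pd_congr (hk.mono fun y hy => hy.2.trans hy.1.symm)
  have hind : ∀ᵐ x, Tendsto (fun k => {y | 0 < u (ψ k) y}.indicator (fun _ => (1 : ℝ)) x) atTop
      (𝓝 ({y | 0 < w y}.indicator (fun _ => (1 : ℝ)) x)) := by
    filter_upwards [hph] with x hx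
    refine tendsto_const_nhds.congr' ?_
    rcases hx with ⟨hpos, -⟩ | ⟨-, hev⟩
    · filter_upwards [(hpt x).eventually (lt_mem_nhds hpos)] with k hk
      rw [indic_one hpos, indic_one hk]
    · filter_upwards [hev] with k hk
      have hk' := hk.self_of_nhds
      rw [indic_zero hk'.2.le, indic_zero hk'.1.le]
  have hwae : ∀ᵐ x, Tendsto (fun k => dens0 (u (ψ k)) x) atTop (𝓝 (dens0 w x)) := by
    filter_upwards [hgrad, hind] with x hx hi
    exact (tendsto_finsetSum _ fun i _ => (hx i).pow 2).add hi
  refine ⟨ψ, w, hψ, ⟨⟨K, hwL⟩, hw0, fun c R v hv hv0 S hS hSR hvw => ?_⟩, hw00, hlim,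
    hgrad, hind⟩
  obtain ⟨Lv, hv⟩ := hv
  obtain ⟨χ, hχs, hχc, hχR, hχ01, hχ1⟩ := exists_cutoff hS isOpen_ball hSR
  obtain ⟨A, hA⟩ := ContDiff.lipschitzWith_of_hasCompactSupport hχc hχs (by norm_num)
  obtain ⟨ρ, hρ⟩ := hχc.isCompact.isBounded.subset_closedBall 0
  let f : ℕ → Pt d → ℝ := fun k x => u (ψ k) x - w x
  have hfL : ∀ k, LipschitzWith (K + K) (f k) := fun k => (hlip (ψ k)).sub hwL
  have hfB : ∀ k x, χ x ≠ 0 → |f k x| ≤ ((K + K) * ρ.toNNReal : ℝ≥0) := fun k x hx => by
    have h := (hfL k).dist_le_mul x 0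
    simp only [f, hu0, hw00, sub_zero, dist_zero_right] at h
    refine h.trans ?_
    rw [NNReal.coe_mul]
    refine mul_le_mul_of_nonneg_left ?_ (NNReal.coe_nonneg _)
    have := hρ (subset_tsupport χ hx)
    rw [mem_closedBall, dist_zero_right] at this
    exact this.trans (Real.le_coe_toNNReal ρ)
  let v' : ℕ → Pt d → ℝ := fun k x => v x + (f k x - χ x * f k x)
  have hv'L : ∀ k, LipschitzWith (Lv + ((K + K) + (A * ((K + K) * ρ.toNNReal) + (K + K)))) (v' k) :=
    fun k => hv.add ((hfL k).sub (lipschitz_cutoff_mul hA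
      (fun x => abs_le.2 ⟨by linarith [(hχ01 x).1], (hχ01 x).2⟩) (hfL k) (hfB k)))
  have hS1 : ∀ x ∈ S, χ x = 1 := fun x hx => (hχ1.filter_mono (nhds_le_nhdsSet hx)).self_of_nhds
  have hv'0 : ∀ k x, 0 ≤ v' k x := fun k x => by
    by_cases hx : x ∈ S
    · simp [v', hS1 x hx, hv0 x]
    · have : v' k x = χ x * w x + (1 - χ x) * u (ψ k) x := by
        simp only [v', f, hvw x hx]; ring
      rw [this]
      exact add_nonneg (mul_nonneg (hχ01 x).1 (hw0 x))
        (mul_nonneg (sub_nonneg.2 (hχ01 x).2) ((hu (ψ k)).nonneg x))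
  have hmin : ∀ k, energy (u (ψ k)) c R ≤ energy (v' k) c R := fun k =>
    (hu (ψ k)).le_energy c R _ ⟨_, hv'L k⟩ (hv'0 k) _ hχc.isCompact hχR fun x hx => by
      have hxS : x ∉ S := fun h => hx (subset_tsupport χ (by simp [hS1 x h]))
      simp [v', f, image_eq_zero_of_notMem_tsupport hx, hvw x hxS]
  refine le_of_tendsto_of_tendsto' (tendsto_energy (fun k => hlip (ψ k)) hwae c R)
    (tendsto_energy hv'L ?_ c R) hmin
  filter_upwards [hph, hgrad, hv.ae_differentiableAt, hwL.ae_differentiableAt,
    ae_all_iff.2 fun k => (hlip (ψ k)).ae_differentiableAt] with x hx hgrad dv dw du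
  have dχ : DifferentiableAt ℝ χ x := hχs.differentiable (by norm_num) x
  refine Tendsto.add (tendsto_finsetSum _ fun i _ => Tendsto.pow ?_ 2) ?_
  · have e : ∀ k, pd i (v' k) x = pd i v x + ((pd i (u (ψ k)) x - pd i w x) -
        (χ x * (pd i (u (ψ k)) x - pd i w x) + pd i χ x * (u (ψ k) x - w x))) := fun k => by
      simp only [v', f]
      have df : DifferentiableAt ℝ (fun y => u (ψ k) y - w y) x := (du k).sub dw
      rw [pd_add dv (df.fun_sub (dχ.fun_mul df)), pd_sub df (dχ.fun_mul df), pd_mul dχ df, pd_sub (du k) dw]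
    simp only [e]
    have h1 := (hgrad i).sub_const (pd i w x)
    have h2 := (hpt x).sub_const (w x)
    rw [sub_self] at h1 h2
    have := (h1.sub ((h1.const_mul (χ x)).add (h2.const_mul (pd i χ x)))).const_add (pd i v x)
    simpa using this
  · refine tendsto_const_nhds.congr' ?_
    by_cases hxS : x ∈ S
    · filter_upwards with k
      have : v' k x = v x := by simp [v', hS1 x hxS]
      by_cases h : 0 < v x
      · rw [indic_one h, indic_one (show 0 < v' k x by rwa [this])]
      · rw [indic_zero (not_lt.1 h), indic_zero (show v' k x ≤ 0 by rw [this]; exact not_lt.1 h)]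
    rcases hx with ⟨hpos, -⟩ | ⟨hz, hev⟩
    · have hv' : Tendsto (fun k => v' k x) atTop (𝓝 (v x)) := by
        have h2 := (hpt x).sub_const (w x)
        rw [sub_self] at h2
        simpa [v', f] using (h2.sub (h2.const_mul (χ x))).const_add (v x)
      have hvx : 0 < v x := by rw [hvw x hxS]; exact hpos
      filter_upwards [hv'.eventually (lt_mem_nhds hvx)] with k hk
      rw [indic_one hvx, indic_one hk]
    · filter_upwards [hev] with k hk
      have hk' := hk.self_of_nhds
      have h0 : v x = 0 := by rw [hvw x hxS, hz]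
      rw [indic_zero h0.le, indic_zero (by simp [v', f, h0, hk'.1, hk'.2])]

end Vale.Agent.P098.Reg
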