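import Vale.Agent.P098.Reg.Blow.Weiss

/-!
Blow-ups of Lipschitz minimisers are homogeneous.
-/

noncomputable section

namespace Vale.Agent.P098.Reg

open MeasureTheory Set Filter Topology Metric
open scoped ContDiff NNReal

variable {d : ℕ} {u : Pt d → ℝ}

theorem dens0_rescale {x0 : Pt d} {r : ℝ} (hr : 0 < r) (x : Pt d) :
    dens0 (rescale u x0 r) x = dens0 u (x0 + r • x) := by
  simp [dens0, gradSq, pd_rescale hr, indicator, rescale_pos_iff hr]

theorem weiss_rescale {r : ℝ} (hr : 0 < r) {s : ℝ} (hs : 0 < s) :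
    weiss (rescale u 0 r) s = weiss u (r * s) := by
  have hI : weissI (rescale u 0 r) s = weissI u (r * s) := by
    unfold weissI
    have e : ∀ x : Pt d, dens0 (rescale u 0 r) x * wF s x =
        (fun z => dens0 u z * wF (r * s) z) (r • x) := fun x => by
      simp only [dens0_rescale hr, zero_add, wF, norm_smul, Real.norm_eq_abs, abs_of_pos hr,
        mul_pow, mul_div_mul_left _ _ (pow_ne_zero 2 hr.ne')]
    simp only [e]
    rw [Measure.integral_comp_smul_of_nonneg volume (fun z => dens0 u z * wF (r * s) z) r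
      (hR := hr.le), finrank_euclideanSpace_fin, smul_eq_mul, mul_pow, mul_inv]
    ring
  have hH : weissH (rescale u 0 r) s = weissH u (r * s) := by
    unfold weissH
    simp only [rescale, zero_add, smul_smul, div_div]
  unfold weiss
  rw [hI, hH]

theorem weiss_lower (h : LMin u) (h0 : u 0 = 0) {K : ℝ≥0} (hK : LipschitzWith K u) :
    ∃ C : ℝ, ∀ r : ℝ, 0 < r → -C ≤ weiss u r := by
  obtain ⟨D, hD0, hD⟩ := deriv_step_le
  refine ⟨∫ y : Pt d, (closedBall (0 : Pt d) 1).indicator (fun _ => (K : ℝ) ^ 2 * (2 * D)) y,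
    fun r hr => ?_⟩
  have h1 : 0 ≤ weissI u r := mul_nonneg (by positivity) (integral_nonneg fun x =>
    mul_nonneg (dens0_nonneg x) (sub_nonneg.2 (step_mem _).2))
  have h2 : weissH u r ≤ ∫ y : Pt d,
      (closedBall (0 : Pt d) 1).indicator (fun _ => (K : ℝ) ^ 2 * (2 * D)) y := by
    refine integral_mono_of_nonneg (Eventually.of_forall fun y =>
      mul_nonneg (sq_nonneg _) (mul_nonneg zero_le_two (deriv_step_nonneg _)))
      ((integrableOn_const measure_closedBall_lt_top.ne).integrable_indicator
        measurableSet_closedBall) (Eventually.of_forall fun y => ?_)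
    simp only
    by_cases hy : ‖y‖ ≤ 1
    · rw [indicator_of_mem (by simpa using hy)]
      refine mul_le_mul ?_ (by linarith [le_abs_self (deriv step (‖y‖ ^ 2)), hD (‖y‖ ^ 2)])
        (mul_nonneg zero_le_two (deriv_step_nonneg _)) (sq_nonneg _)
      rw [← sq_abs, abs_div, abs_of_pos hr]
      refine pow_le_pow_left₀ (by positivity) ((div_le_iff₀ hr).2 ?_) 2
      have := hK.dist_le_mul (r • y) 0
      rw [h0, Real.dist_eq, sub_zero, dist_zero_right, norm_smul, Real.norm_eq_abs,
        abs_of_pos hr] at this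
      refine this.trans ?_
      gcongr
      exact mul_le_of_le_one_right hr.le hy
    · rw [indicator_of_notMem (by simpa using hy),
        deriv_step_out (one_lt_pow₀ (not_le.1 hy) two_ne_zero)]
      simp
  unfold weiss
  linarith

/-- The limit of the Weiss functional at small scales. -/
theorem weiss_tendsto (hB : Basics d) (h : LMin u) (h0 : u 0 = 0) :
    ∃ L, Tendsto (weiss u) (𝓝[>] 0) (𝓝 L) := by
  obtain ⟨K, hK⟩ := h.lip
  obtain ⟨C, hC⟩ := weiss_lower h h0 hK
  exact ⟨_, MonotoneOn.tendsto_nhdsWithin_Ioo_right (y := (1 : ℝ)) (nonempty_Ioo.2 one_pos)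
    ((weiss_mono hB h h0).mono Ioo_subset_Ioi_self)
    ⟨-C, forall_mem_image.2 fun r hr => hC r hr.1⟩⟩

theorem exists_step_deriv : ∃ σ : ℝ, 0 < σ ∧ 0 < deriv step σ := by
  obtain ⟨σ, hσ, he⟩ := exists_deriv_eq_slope step (show (1 / 2 : ℝ) < 1 by norm_num)
    (step_contDiff (n := 0)).continuous.continuousOn
    ((step_contDiff (n := 1)).differentiable one_ne_zero).differentiableOn
  refine ⟨σ, by linarith [hσ.1], ?_⟩
  rw [he, step_one le_rfl, step_zero le_rfl]
  norm_num

/-- A minimiser whose Weiss functional is constant is homogeneous. -/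
theorem homog_of_weiss_const (hB : Basics d) (h : LMin u) (h0 : u 0 = 0) {L : ℝ}
    (hL : ∀ s, 0 < s → weiss u s = L) : Homog u := by
  obtain ⟨K, hK⟩ := h.lip
  obtain ⟨σ, hσ, hσd⟩ := exists_step_deriv
  have hzero : ∀ s, 0 < s → ∫ x, (eul u x - u x) ^ 2 * wK s x = 0 := fun s hs => by
    have h1 := hasDerivAt_weiss hB h h0 hs
    have h2 : HasDerivAt (weiss u) 0 s := by
      refine (hasDerivAt_const s L).congr_of_eventuallyEq ?_
      filter_upwards [Ioi_mem_nhds hs] with t ht using hL t ht
    have e := h1.unique h2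
    have hc : (0 : ℝ) < (s ^ d)⁻¹ / s := by positivity
    have := (mul_eq_zero.1 e).resolve_left hc.ne'
    linarith
  have heul : ∀ x, 0 < u x → x ≠ 0 → eul u x = u x := fun x hx hne => by
    by_contra hcon
    set s := ‖x‖ / Real.sqrt σ with hsdef
    have hs : 0 < s := div_pos (norm_pos_iff.2 hne) (Real.sqrt_pos.2 hσ)
    have hσe : ‖x‖ ^ 2 / s ^ 2 = σ := by
      rw [hsdef, div_pow, Real.sq_sqrt hσ.le]
      field_simp [norm_ne_zero_iff.2 hne]
    set g : Pt d → ℝ := fun z => (eul u z - u z) ^ 2 * wK s z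
    have hgx : 0 < g x := by
      refine mul_pos (by positivity [sub_ne_zero.2 hcon]) ?_
      unfold wK
      rw [hσe]; positivity
    have hcont : ContinuousAt g x := by
      have he : ContinuousAt (eul u) x := by
        have := (hB.smooth u h).contDiffAt (h.isOpen_pos.mem_nhds hx)
        refine tendsto_finsetSum _ fun i _ => ?_
        refine Tendsto.mul ((PiLp.continuous_apply (p := 2) (β := fun _ : Fin d => ℝ) i).continuousAt) ?_
        exact (((contDiffOn_pd (m := ∞) h.isOpen_pos (hB.smooth u h) le_rfl).contDiffAt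
          (h.isOpen_pos.mem_nhds hx))).continuousAt
      exact ((he.sub h.continuous.continuousAt).pow 2).mul (continuous_wK s).continuousAt
    have hgnn : ∀ z, 0 ≤ g z := fun z => mul_nonneg (sq_nonneg _) (wK_nonneg s z)
    have hgi : Integrable g := integrable_mul_wK (M := ((K : ℝ) * (d * s) + K * s) ^ 2)
      ((measurable_eul.sub h.continuous.measurable).pow_const 2) hs fun z hz => by
        rw [abs_pow]
        refine pow_le_pow_left₀ (abs_nonneg _) ((abs_sub _ _).trans
          (add_le_add ((abs_eul_le hK z).trans (by gcongr)) ?_)) 2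
        have := hK.dist_le_mul z 0
        rw [h0, Real.dist_eq, sub_zero, dist_zero_right] at this
        exact this.trans (by gcongr)
    have hae := (integral_eq_zero_iff_of_nonneg hgnn hgi).1 (hzero s hs)
    obtain ⟨W, hW, hWo, hxW⟩ := _root_.eventually_nhds_iff.1 (hcont.eventually (lt_mem_nhds hgx))
    have hpos := hWo.measure_pos volume ⟨x, hxW⟩
    have hsub : W ⊆ {z | ¬ g z = (0 : Pt d → ℝ) z} := fun z hz => (hW z hz).ne'
    exact (hpos.trans_le (measure_mono hsub)).ne' (ae_iff.1 hae)
  have hray : ∀ x, 0 < u x → ∀ t : ℝ, 0 < t → u (t • x) = t * u x := by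
    intro x hx
    have hx0 : x ≠ 0 := fun e => by rw [e, h0] at hx; exact lt_irrefl _ hx
    have hd : ∀ t : ℝ, 0 < t → 0 < u (t • x) → HasDerivAt (fun s => u (s • x) / s) 0 t :=
      fun t ht hut => by
        have h1 : HasDerivAt (fun s : ℝ => s • x) x t := by
          simpa using (hasDerivAt_id t).smul_const x
        have h2 : HasDerivAt (fun s => u (s • x)) (fderiv ℝ u (t • x) x) t :=
          (hB.diffAt h hut).hasFDerivAt.comp_hasDerivAt (f := fun s : ℝ => s • x) t h1
        refine (h2.div (hasDerivAt_id' t) ht.ne').congr_deriv ?_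
        have e := heul (t • x) hut (smul_ne_zero ht.ne' hx0)
        have e2 : fderiv ℝ u (t • x) x * t = eul u (t • x) := by
          rw [fderiv_eq_sum_pd, eul, Finset.sum_mul]
          exact Finset.sum_congr rfl fun i _ => by simp; ring
        rw [e2, e]; simp
    let T : Set (Ioi (0 : ℝ)) := {t | u ((t : ℝ) • x) / (t : ℝ) = u x}
    have hcl : IsClosed T := isClosed_eq
      (((h.continuous.comp (continuous_subtype_val.smul continuous_const))).div₀
        continuous_subtype_val fun t => (show (0 : ℝ) < t from t.2).ne') continuous_const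
    have hop : IsOpen T := by
      rw [isOpen_iff_mem_nhds]
      rintro ⟨t, ht⟩ hmem
      have ht0 : (0 : ℝ) < t := ht
      have hpos : 0 < u (t • x) := by
        have : u (t • x) / t = u x := hmem
        rw [div_eq_iff ht0.ne'] at this
        rw [this]; exact mul_pos hx ht0
      have hev : ∀ᶠ s in 𝓝 t, 0 < s ∧ 0 < u (s • x) :=
        (show ∀ᶠ s in 𝓝 t, 0 < s from Ioi_mem_nhds ht0).and
          ((h.continuous.comp (continuous_id.smul continuous_const)).continuousAt.eventually
            (lt_mem_nhds hpos))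
      obtain ⟨δ, hδ, hball⟩ := Metric.eventually_nhds_iff.1 hev
      refine mem_nhds_iff.2 ⟨Subtype.val ⁻¹' ball t δ, fun s hs => ?_,
        isOpen_ball.preimage continuous_subtype_val, mem_ball_self hδ⟩
      show u ((s : ℝ) • x) / (s : ℝ) = u x
      have hdiff : DifferentiableOn ℝ (fun s => u (s • x) / s) (ball t δ) := fun r hr =>
        (hd r (hball hr).1 (hball hr).2).differentiableAt.differentiableWithinAt
      refine Eq.trans ?_ hmem
      exact isOpen_ball.is_const_of_deriv_eq_zero (convex_ball t δ).isPreconnected hdiff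
        (fun r hr => (hd r (hball hr).1 (hball hr).2).deriv) hs (mem_ball_self hδ)
    have : PreconnectedSpace (Ioi (0 : ℝ)) := Subtype.preconnectedSpace isPreconnected_Ioi
    have huniv : T = univ := IsClopen.eq_univ ⟨hcl, hop⟩ ⟨⟨1, zero_lt_one (α := ℝ)⟩, by simp [T]⟩
    intro t ht
    have hm : (⟨t, ht⟩ : Ioi (0 : ℝ)) ∈ T := by rw [huniv]; exact mem_univ _
    have : u (t • x) / t = u x := hm
    rw [div_eq_iff ht.ne'] at this
    linarith
  intro r hr x
  by_cases hx : 0 < u x
  · exact hray x hx r hr
  · have hx0 := h.eq_zero hx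
    rw [hx0, mul_zero]
    by_contra hne
    have hp : 0 < u (r • x) := lt_of_le_of_ne (h.nonneg _) (Ne.symm hne)
    have := hray _ hp r⁻¹ (inv_pos.2 hr)
    rw [inv_smul_smul₀ hr.ne', hx0] at this
    exact (mul_pos (inv_pos.2 hr) hp).ne this

/-- Blow-ups of minimisers are homogeneous minimisers. -/
theorem homogBlowUp (hB : Basics d) (hC : Compactness d) : HomogBlowUp d := by
  intro u hu x0 hx0 r hr hr0
  obtain ⟨K, hK⟩ := hB.lip
  obtain ⟨D, hD0, hD⟩ := deriv_step_le
  set v := rescale u x0 1 with hvdef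
  have hv : LMin v := hu.rescale x0 one_pos
  have hv0 : v 0 = 0 := by simp [v, rescale, hx0]
  have e : ∀ k, rescale u x0 (r k) = rescale v 0 (r k) := fun k => by
    rw [hvdef, rescale_rescale one_pos]; simp
  obtain ⟨ψ, w, hψ, hw, hw0, hlim, hgrad, hind⟩ :=
    hC (fun k => rescale v 0 (r k)) (fun k => hv.rescale 0 (hr k)) fun k => by simp [rescale, hv0]
  refine ⟨ψ, w, hψ, hw, ?_, by
    rw [show (fun k y => u (x0 + r (ψ k) • y) / r (ψ k)) = fun k => rescale v 0 (r (ψ k)) from
      funext fun k => (e (ψ k))]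
    exact hlim⟩
  obtain ⟨L, hL⟩ := weiss_tendsto hB hv hv0
  refine homog_of_weiss_const (L := L) hB hw hw0 fun s hs => ?_
  have hKk : ∀ k, LipschitzWith K (rescale v 0 (r (ψ k))) := fun k =>
    hK _ (hv.rescale 0 (hr _)) ⟨0, by simp [rescale, hv0]⟩
  have hKw : LipschitzWith K w := hK w hw ⟨0, hw0⟩
  have hpt : ∀ y, Tendsto (fun k => rescale v 0 (r (ψ k)) y) atTop (𝓝 (w y)) := fun y =>
    hlim.tendstoLocallyUniformlyOn (s := univ) |>.tendsto_at (mem_univ y)
  have h1 : Tendsto (fun k => weissI (rescale v 0 (r (ψ k))) s) atTop (𝓝 (weissI w s)) := by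
    refine Tendsto.const_mul _ (tendsto_integral_of_dominated_convergence
      ((closedBall (0 : Pt d) s).indicator fun _ => (d : ℝ) * (K : ℝ) ^ 2 + 1)
      (fun k => ((measurable_dens0 (hKk k).continuous).mul
        (contDiff_wF (n := 0) s).continuous.measurable).aestronglyMeasurable)
      ((integrableOn_const measure_closedBall_lt_top.ne).integrable_indicator
        measurableSet_closedBall)
      (fun k => Eventually.of_forall fun x => ?_) ?_)
    · rw [Real.norm_eq_abs]
      by_cases hx : ‖x‖ ≤ s
      · rw [indicator_of_mem (by simpa using hx), abs_mul, abs_of_nonneg (dens0_nonneg x)]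
        exact (mul_le_of_le_one_right (dens0_nonneg x) (wF_mem s x)).trans (dens0_le (hKk k) x)
      · rw [indicator_of_notMem (by simpa using hx), wF_out hs (not_le.1 hx), mul_zero, abs_zero]
    · filter_upwards [hgrad, hind] with x hx1 hx2
      exact (Tendsto.add (tendsto_finsetSum _ fun i _ => (hx1 i).pow 2) hx2).mul_const _
  have h2 : Tendsto (fun k => weissH (rescale v 0 (r (ψ k))) s) atTop (𝓝 (weissH w s)) := by
    refine tendsto_integral_of_dominated_convergence
      ((closedBall (0 : Pt d) 1).indicator fun _ => (K : ℝ) ^ 2 * (2 * D))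
      (fun k => ((((hKk k).continuous.comp (continuous_const_smul s)).div_const s).pow 2).mul
        ((continuous_deriv_step.comp (continuous_norm.pow 2)).const_mul 2) |>.aestronglyMeasurable)
      ((integrableOn_const measure_closedBall_lt_top.ne).integrable_indicator
        measurableSet_closedBall)
      (fun k => Eventually.of_forall fun y => ?_)
      (Eventually.of_forall fun y => (((hpt _).div_const s).pow 2).mul_const _)
    rw [Real.norm_eq_abs, abs_mul, abs_pow, abs_mul, abs_two]
    by_cases hy : ‖y‖ ≤ 1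
    · rw [indicator_of_mem (by simpa using hy)]
      refine mul_le_mul (pow_le_pow_left₀ (abs_nonneg _) ?_ 2) (by linarith [hD (‖y‖ ^ 2)])
        (by positivity) (sq_nonneg _)
      rw [abs_div, abs_of_pos hs, div_le_iff₀ hs]
      have := (hKk k).dist_le_mul (s • y) 0
      rw [show rescale v 0 (r (ψ k)) 0 = 0 by simp [rescale, hv0], Real.dist_eq, sub_zero,
        dist_zero_right, norm_smul, Real.norm_eq_abs, abs_of_pos hs] at this
      refine this.trans ?_
      gcongr
      exact mul_le_of_le_one_right hs.le hy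
    · rw [indicator_of_notMem (by simpa using hy),
        deriv_step_out (one_lt_pow₀ (not_le.1 hy) two_ne_zero)]
      simp
  have h3 : Tendsto (fun k => weiss (rescale v 0 (r (ψ k))) s) atTop (𝓝 L) := by
    simp only [weiss_rescale (hr _) hs]
    refine hL.comp (tendsto_nhdsWithin_iff.2 ⟨?_, Eventually.of_forall fun k => mul_pos (hr _) hs⟩)
    simpa using (hr0.comp hψ.tendsto_atTop).mul_const s
  exact tendsto_nhds_unique (h1.sub h2) h3

end Vale.Agent.P098.Reg
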