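import Vale.Agent.P098.Reg.Blow.HomogLimit
import Vale.Agent.P098.Reg.AC.FirstReg

/-!
Homogeneous minimisers with vanishing Hessian are flat; hence every homogeneous minimiser in
dimensions one and two is flat.
-/

noncomputable section

namespace Vale.Agent.P098.Reg

open MeasureTheory Set Filter Topology
open scoped ContDiff NNReal

variable {d : ℕ} {u : Pt d → ℝ}

theorem pd_lin (a : Pt d) (i : Fin d) (x : Pt d) :
    pd i (fun y : Pt d => ∑ j, y j * a j) x = a i := by
  have hd : ∀ j, DifferentiableAt ℝ (fun y : Pt d => y j) x := fun j =>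
    (EuclideanSpace.proj (𝕜 := ℝ) (ι := Fin d) j).differentiableAt
  rw [pd_sum _ fun j _ => (hd j).mul_const _]
  simp [pd_mul (hd _) (differentiableAt_const _), pd_const, pd_apply]

/-- The linear form `x ↦ x.a`. -/
def linForm (a : Pt d) : Pt d →ₗ[ℝ] ℝ where
  toFun y := ∑ i, y i * a i
  map_add' x y := by simp [add_mul, Finset.sum_add_distrib]
  map_smul' c x := by simp [Finset.mul_sum, mul_assoc]

theorem linForm_apply (a y : Pt d) : linForm a y = ∑ i, y i * a i := rfl

/-- A half-space minimiser has unit slope. -/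
theorem slope_one (hB : Basics d) (h : LMin u) {a x0 : Pt d} (hx0 : 0 < linForm a x0)
    (hu : ∀ x, u x = max (linForm a x) 0) : ∑ i, a i ^ 2 = 1 := by
  classical
  set N2 := ∑ i, a i ^ 2 with hN2
  have hN : 0 < linForm a a := by
    rcases (Finset.sum_nonneg fun i (_ : i ∈ Finset.univ) => sq_nonneg (a i)).eq_or_lt with e | e
    · exfalso
      have h0 : ∀ i, a i = 0 := fun i =>
        pow_eq_zero_iff two_ne_zero |>.1
          ((Finset.sum_eq_zero_iff_of_nonneg fun j _ => sq_nonneg (a j)).1 e.symm i (Finset.mem_univ i))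
      simp [linForm_apply, h0] at hx0
    · simpa [linForm_apply, sq] using e
  have hpos : ∀ x, 0 < u x ↔ 0 < linForm a x := fun x => by simp [hu x]
  let X : Fin d → Pt d → ℝ := fun i x => a i * wF 1 x
  have hpdX : ∀ i j x, pd j (X i) x = -(a i * (wK 1 x * x j)) := fun i j x => by
    rw [show pd j (X i) x = a i * pd j (wF 1) x from
      pd_const_mul _ ((contDiff_wF (n := 1) 1).differentiable one_ne_zero x), pd_wF]
    ring
  have hdens : ∀ x, innerDens u X x = (N2 - 1) * (wK 1 x * u x) := fun x => by
    by_cases hx : 0 < u x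
    · have hx' := (hpos x).1 hx
      have hev : u =ᶠ[𝓝 x] fun y => ∑ j, y j * a j := by
        filter_upwards [(isOpen_lt continuous_const (linForm a).continuous_of_finiteDimensional).mem_nhds
          hx'] with y hy
        rw [hu y, max_eq_left (le_of_lt hy)]; rfl
      have hpd : ∀ i, pd i u x = a i := fun i => by rw [pd_congr hev, pd_lin]
      have hval : u x = ∑ i, x i * a i := by rw [hu x, max_eq_left hx'.le]; rfl
      have e1 : ∑ i, a i * (wK 1 x * x i) = wK 1 x * ∑ i, x i * a i := by
        rw [Finset.mul_sum]; exact Finset.sum_congr rfl fun i _ => by ring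
      have e2 : ∑ i, ∑ j, a i * a j * -(a i * (wK 1 x * x j)) =
          -(N2 * (wK 1 x * ∑ i, x i * a i)) := by
        rw [← e1, hN2, Finset.sum_mul_sum, ← Finset.sum_neg_distrib]
        refine Finset.sum_congr rfl fun i _ => ?_
        rw [← Finset.sum_neg_distrib]
        exact Finset.sum_congr rfl fun j _ => by ring
      simp only [innerDens, dens0, gradSq, hpd, hpdX, hval, Finset.sum_neg_distrib, e1, e2, ← hN2]
      rw [indicator_of_mem (show x ∈ {y | 0 < u y} from hx)]
      ring
    · simp [innerDens, h.dens0_eq_zero (h.eq_zero hx), h.pd_zero (h.eq_zero hx), h.eq_zero hx]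
  have hint := inner_identity hB h (X := X)
    (fun i => contDiff_const.mul (contDiff_wF (n := 2) 1))
    (fun i => (hasCompactSupport_wF one_pos).mul_left)
  simp only [hdens, integral_const_mul] at hint
  obtain ⟨σ, hσ, hσd⟩ := exists_step_deriv
  set g : Pt d → ℝ := fun x => wK 1 x * u x with hg
  have hgc : Continuous g := (continuous_wK 1).mul h.continuous
  have hgs : HasCompactSupport g :=
    HasCompactSupport.intro (isCompact_closedBall 0 1) fun x hx => by
      rw [mem_closedBall_zero_iff, not_le] at hx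
      simp [hg, wK_out one_pos hx]
  have hna : 0 < ‖a‖ := norm_pos_iff.2 fun e => by
    rw [e, map_zero] at hN; exact lt_irrefl _ hN
  set t := Real.sqrt σ / ‖a‖ with ht
  have htp : 0 < t := div_pos (Real.sqrt_pos.2 hσ) hna
  have hgy : g (t • a) ≠ 0 := by
    have hn : ‖t • a‖ ^ 2 = σ := by
      rw [norm_smul, Real.norm_of_nonneg htp.le, ht, div_mul_cancel₀ _ hna.ne', Real.sq_sqrt hσ.le]
    have hw : 0 < wK 1 (t • a) := by
      simp only [wK, one_pow, div_one, hn]; positivity
    have hv : 0 < u (t • a) := by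
      rw [hpos, map_smul, smul_eq_mul]; exact mul_pos htp hN
    exact (mul_pos hw hv).ne'
  have hgpos : 0 < ∫ x, g x :=
    hgc.integral_pos_of_hasCompactSupport_nonneg_nonzero hgs
      (fun x => mul_nonneg (wK_nonneg 1 x) (h.nonneg x)) hgy
  rcases mul_eq_zero.1 hint with e | e
  · linarith
  · exact absurd e hgpos.ne'

theorem euler_min (hB : Basics d) (h : LMin u) (hh : Homog u) {x : Pt d} (hx : 0 < u x) :
    ∑ i, x i * pd i u x = u x := by
  rw [← fderiv_eq_sum_pd]
  exact euler_pos h.continuous hh (fun _ _ => rfl) hx (hB.diffAt h hx)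

/-- The open half space of a point with locally constant gradient lies in the positivity set. -/
theorem half_linear (hB : Basics d) (h : LMin u) (hh : Homog u)
    (hA : ∀ x, 0 < u x → ∀ i j, pd i (pd j u) x = 0) {x0 a : Pt d} (hx0 : 0 < u x0)
    (ha : ∀ i, a i = pd i u x0) : ∀ y, 0 ≤ linForm a y → u y = linForm a y := by
  have hΩ := h.isOpen_pos
  have hP : ∀ i, ContDiffOn ℝ ∞ (pd i u) {x | 0 < u x} := fun i =>
    contDiffOn_pd hΩ (hB.smooth u h) le_rfl
  let W : Set (Pt d) := {z | 0 < u z ∧ ∀ i, pd i u z = a i}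
  let H : Set (Pt d) := {z | 0 < linForm a z}
  have hLc : Continuous (linForm a) := (linForm a).continuous_of_finiteDimensional
  have hH : IsPreconnected H := (convex_halfSpace_gt (linForm a).isLinear 0).isPreconnected
  have hWo : IsOpen W := by
    rw [isOpen_iff_mem_nhds]
    rintro z ⟨hz, hzP⟩
    obtain ⟨r, hr, hball⟩ := Metric.mem_nhds_iff.1 (hΩ.mem_nhds hz)
    refine mem_of_superset (Metric.ball_mem_nhds z hr) fun w hw => ⟨hball hw, fun i => ?_⟩
    rw [← hzP i]
    refine Metric.isOpen_ball.is_const_of_fderiv_eq_zero (convex_ball z r).isPreconnected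
      (fun q hq => (((hP i).contDiffAt (hΩ.mem_nhds (hball hq))).differentiableAt
        (by simp)).differentiableWithinAt) (fun q hq => ?_) hw (Metric.mem_ball_self hr)
    ext v
    rw [fderiv_eq_sum_pd]
    simp [hA q (hball hq)]
  have hW : W ⊆ {z | u z = linForm a z} := fun z hz => by
    show u z = linForm a z
    rw [← euler_min hB h hh hz.1, linForm_apply]
    simp [hz.2]
  have hcl : closure W ⊆ {z | u z = linForm a z} :=
    closure_minimal hW (isClosed_eq h.continuous hLc)
  have hx0W : x0 ∈ W := ⟨hx0, fun i => (ha i).symm⟩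
  have hx0H : 0 < linForm a x0 := by rw [← hW hx0W]; exact hx0
  have hsub : H ⊆ W := by
    refine hH.subset_of_closure_inter_subset hWo ⟨x0, hx0H, hx0W⟩ ?_
    rintro z ⟨hz, hzH⟩
    have hzu : 0 < u z := by rw [hcl hz]; exact hzH
    refine ⟨hzu, fun i => ?_⟩
    have : (𝓝[W] z).NeBot := mem_closure_iff_nhdsWithin_neBot.1 hz
    exact tendsto_nhds_unique
      (((hP i).continuousOn.continuousAt (hΩ.mem_nhds hzu)).mono_left nhdsWithin_le_nhds)
      (tendsto_const_nhds.congr'
        (eventually_nhdsWithin_of_forall fun w (hw : w ∈ W) => (hw.2 i).symm))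
  intro y hy
  refine hcl ?_
  have hlim : Tendsto (fun n : ℕ => y + (1 / ((n : ℝ) + 1)) • x0) atTop (𝓝 y) := by
    simpa using ((tendsto_one_div_add_atTop_nhds_zero_nat (𝕜 := ℝ)).smul_const x0).const_add y
  refine mem_closure_of_tendsto hlim (Eventually.of_forall fun n => hsub ?_)
  show 0 < linForm a (y + (1 / ((n : ℝ) + 1)) • x0)
  rw [map_add, map_smul, smul_eq_mul]
  positivity

/-- **A homogeneous minimiser with vanishing Hessian is flat.** -/
theorem isFlat_of_hess (hB : Basics d) (h : LMin u) (hh : Homog u)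
    (hA : ∀ x, 0 < u x → ∀ i j, pd i (pd j u) x = 0) : IsFlat u := by
  classical
  by_cases hne : ∃ x0, 0 < u x0
  swap
  · exact Or.inl (funext fun x => h.eq_zero fun hx => hne ⟨x, hx⟩)
  obtain ⟨x0, hx0⟩ := hne
  let a : Pt d := WithLp.toLp 2 fun i => pd i u x0
  have hhalf := half_linear hB h hh hA (a := a) hx0 fun i => rfl
  have hax : linForm a x0 = u x0 := euler_min hB h hh hx0
  have hu0 : u 0 = 0 := by
    have := hh 2 two_pos 0
    rw [smul_zero] at this
    linarith
  have hmain : ∀ y, u y = max (linForm a y) 0 := by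
    intro y
    rcases le_total 0 (linForm a y) with hy | hy
    · rw [max_eq_left hy, hhalf y hy]
    rw [max_eq_right hy]
    refine h.eq_zero fun hyp => ?_
    let b : Pt d := WithLp.toLp 2 fun i => pd i u y
    have hhalf' := half_linear hB h hh hA (a := b) hyp fun i => rfl
    have hby : linForm b y = u y := euler_min hB h hh hyp
    have hker : ∀ z, linForm a z = 0 → linForm b z = 0 := by
      intro z hz
      rcases le_total 0 (linForm b z) with hb | hb
      · rw [← hhalf' z hb, hhalf z hz.ge, hz]
      · have hb' : 0 ≤ linForm b (-z) := by rw [map_neg]; linarith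
        have := hhalf' (-z) hb'
        rw [hhalf (-z) (by rw [map_neg, hz, neg_zero]), map_neg, map_neg, hz] at this
        linarith
    have hprop : ∀ z, linForm b z = linForm a z / linForm a x0 * linForm b x0 := fun z => by
      have := hker (z - (linForm a z / linForm a x0) • x0) (by
        rw [map_sub, map_smul, smul_eq_mul, div_mul_cancel₀ _ (by rw [hax]; exact hx0.ne'), sub_self])
      rw [map_sub, map_smul, smul_eq_mul] at this
      linarith
    have hya : linForm a y < 0 := hy.lt_of_ne fun e => hyp.ne' (by rw [hhalf y e.ge, e])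
    have hbx : linForm b x0 < 0 := by
      by_contra hcon
      have := hprop y
      have h2 : linForm a y / linForm a x0 ≤ 0 :=
        div_nonpos_of_nonpos_of_nonneg hy (by rw [hax]; exact hx0.le)
      nlinarith [not_lt.1 hcon]
    have hsub : {z | u z = 0} ⊆ ((linForm a).ker : Set (Pt d)) := by
      intro z (hz : u z = 0)
      by_contra hz'
      rcases lt_or_gt_of_ne (show linForm a z ≠ 0 from hz') with hn | hp
      · have hbz : 0 < linForm b z := by
          rw [hprop z]
          exact mul_pos_of_neg_of_neg (div_neg_of_neg_of_pos hn (by rw [hax]; exact hx0)) hbx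
        rw [hhalf' z hbz.le] at hz
        exact hbz.ne' hz
      · rw [hhalf z hp.le] at hz
        exact hp.ne' hz
    refine hB.zero_pos u h 0 1 one_pos hu0 (measure_mono_null (inter_subset_left.trans hsub) ?_)
    refine Measure.addHaar_submodule volume _ fun e => ?_
    have : x0 ∈ (linForm a).ker := e ▸ Submodule.mem_top
    rw [LinearMap.mem_ker, hax] at this
    exact hx0.ne' this
  have hone : ∑ i, a i ^ 2 = 1 := slope_one hB h (x0 := x0) (by rw [hax]; exact hx0) hmain
  refine Or.inr ⟨a, ?_, funext hmain⟩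
  rw [EuclideanSpace.norm_eq]
  simp only [Real.norm_eq_abs, sq_abs]
  rw [hone, Real.sqrt_one]

/-- Differentiating Euler's relation: the Hessian annihilates the position vector. -/
theorem hess_radial (hB : Basics d) (h : LMin u) (hh : Homog u) {x : Pt d} (hx : 0 < u x)
    (j : Fin d) : ∑ i, x i * pd i (pd j u) x = 0 := by
  classical
  have hΩ := h.isOpen_pos
  have hd : ∀ i, DifferentiableAt ℝ (fun y : Pt d => y i) x := fun i =>
    (EuclideanSpace.proj (𝕜 := ℝ) (ι := Fin d) i).differentiableAt
  have hp : ∀ i, DifferentiableAt ℝ (pd i u) x := fun i =>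
    ((contDiffOn_pd (m := ∞) hΩ (hB.smooth u h) le_rfl).contDiffAt
      (hΩ.mem_nhds hx)).differentiableAt (by simp)
  have e : pd j (fun y => ∑ i, y i * pd i u y) x = pd j u x :=
    pd_congr (eventually_of_mem (hΩ.mem_nhds hx) fun y hy => euler_min hB h hh hy)
  rw [pd_sum _ fun i _ => (hd i).fun_mul (hp i)] at e
  simp only [pd_mul (hd _) (hp _), pd_apply, ite_mul, one_mul, zero_mul, Finset.sum_add_distrib,
    Finset.sum_ite_eq', Finset.mem_univ, if_true] at e
  calc ∑ i, x i * pd i (pd j u) x = ∑ i, x i * pd j (pd i u) x :=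
        Finset.sum_congr rfl fun i _ => by rw [pd_comm hΩ (hB.smooth u h) hx (WithTop.coe_le_coe.2 le_top)]
    _ = 0 := by linarith

/-- Dimension one. -/
theorem flatDim_one : FlatDim 1 := by
  intro u h hh
  have hB := basics 1
  refine isFlat_of_hess hB h hh fun x hx i j => ?_
  have := hB.harmonic u h x hx
  rw [Fin.sum_univ_one] at this
  rw [Subsingleton.elim i 0, Subsingleton.elim j 0]
  exact this

/-- Dimension two. -/
theorem flatDim_two : FlatDim 2 := by
  intro u h hh
  have hB := basics 2
  refine isFlat_of_hess hB h hh fun x hx => ?_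
  have hs := pd_comm h.isOpen_pos (hB.smooth u h) hx (i := (0 : Fin 2)) (j := 1)
    (WithTop.coe_le_coe.2 le_top)
  have h0 := hess_radial hB h hh hx 0
  have h1 := hess_radial hB h hh hx 1
  have ht := hB.harmonic u h x hx
  simp only [Fin.sum_univ_two] at h0 h1 ht
  rw [← hs] at h0
  set p := pd 0 (pd 0 u) x
  set q := pd 0 (pd 1 u) x
  set r := pd 1 (pd 1 u) x
  have hne : 0 < x 0 ^ 2 + x 1 ^ 2 := by
    by_contra hcon
    have hx0 : x = 0 := by
      ext i
      refine pow_eq_zero_iff two_ne_zero |>.1 (le_antisymm ?_ (sq_nonneg _))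
      have h01 := Fin.sum_univ_two fun k => x k ^ 2
      have := Finset.single_le_sum (fun k _ => sq_nonneg (x k)) (Finset.mem_univ i)
      linarith [not_lt.1 hcon]
    have := hh 2 two_pos 0
    rw [smul_zero] at this
    rw [hx0] at hx
    linarith
  have hr : r = -p := by linarith
  rw [hr] at h1
  have hp : p = 0 := by
    have e : p * (x 0 ^ 2 + x 1 ^ 2) = 0 := by linear_combination x 0 * h0 - x 1 * h1
    exact (mul_eq_zero.1 e).resolve_right hne.ne'
  have hq : q = 0 := by
    have e : q * (x 0 ^ 2 + x 1 ^ 2) = 0 := by linear_combination x 1 * h0 + x 0 * h1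
    exact (mul_eq_zero.1 e).resolve_right hne.ne'
  intro i j
  fin_cases i <;> fin_cases j
  · exact hp
  · exact hq
  · exact hs.symm.trans hq
  · show r = 0
    rw [hr, hp, neg_zero]

/-- Module C: the dimensions handled by hand. -/
theorem lowDim : LowDim := ⟨flatDim_one, flatDim_two⟩

end Vale.Agent.P098.Reg
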