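import Vale.Agent.P098.Reg.Blow.Slice
import Vale.Agent.P098.Reg.Scale

/-!
Dimension reduction: at a free boundary point other than the vertex of a homogeneous minimiser the
blow-ups are invariant along that point, hence half-space solutions, and the point is flat.
-/

noncomputable section

namespace Vale.Agent.P098.Reg

open MeasureTheory Set Filter Topology Metric
open scoped ContDiff NNReal RealInnerProductSpace

variable {d : ℕ}

theorem LMin.apply_free {u : Pt d → ℝ} (h : LMin u) {x : Pt d} (hx : x ∈ free u) : u x = 0 := by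
  rw [free, h.isOpen_pos.frontier_eq] at hx
  exact h.eq_zero hx.2

/-- Blow-ups of a homogeneous function at a point `x0` are invariant along `x0`. -/
theorem blowUp_invariant {u w : Pt d → ℝ} {x0 : Pt d} {r : ℕ → ℝ} {K : ℝ≥0}
    (hK : LipschitzWith K u) (hu : Homog u) (hx0 : u x0 = 0) (hr : ∀ k, 0 < r k)
    (hr0 : Tendsto r atTop (𝓝 0))
    (hlim : ∀ y, Tendsto (fun k => rescale u x0 (r k) y) atTop (𝓝 (w y))) (y : Pt d) (t : ℝ) :
    w (y + t • x0) = w y := by
  have h1 : Tendsto (fun k => rescale u x0 (r k) (y + t • x0) - rescale u x0 (r k) y) atTop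
      (𝓝 (w (y + t • x0) - w y)) := (hlim _).sub (hlim _)
  have h2 : Tendsto (fun k => rescale u x0 (r k) (y + t • x0) - rescale u x0 (r k) y) atTop (𝓝 0) := by
    refine squeeze_zero_norm' ?_ (by simpa using hr0.const_mul (2 * (K : ℝ) * |t| * ‖y‖))
    have hev : ∀ᶠ k in atTop, 0 < 1 + r k * t := by
      have : Tendsto (fun k => 1 + r k * t) atTop (𝓝 1) := by
        simpa using (hr0.mul_const t).const_add 1
      exact this.eventually (lt_mem_nhds zero_lt_one)
    filter_upwards [hev] with k hk
    set a := 1 + r k * t with ha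
    set s := r k / a with hs
    have e : rescale u x0 (r k) (y + t • x0) = a * u (x0 + s • y) / r k := by
      rw [rescale, ← hu a hk, hs, smul_add, smul_smul, smul_add, smul_smul, mul_div_cancel₀ _ hk.ne',
        ha, add_smul, one_smul]
      congr 2
      abel
    have hb : |u (x0 + s • y) - u (x0 + r k • y)| ≤ (K : ℝ) * (|s - r k| * ‖y‖) := by
      have := hK.dist_le_mul (x0 + s • y) (x0 + r k • y)
      rw [Real.dist_eq, dist_add_left, dist_eq_norm, ← sub_smul, norm_smul, Real.norm_eq_abs] at this
      exact this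
    have hc : |u (x0 + r k • y)| ≤ (K : ℝ) * (r k * ‖y‖) := by
      have := hK.dist_le_mul (x0 + r k • y) x0
      rw [Real.dist_eq, hx0, sub_zero, dist_eq_norm, add_sub_cancel_left, norm_smul, Real.norm_eq_abs,
        abs_of_pos (hr k)] at this
      exact this
    have hsr : a * |s - r k| = r k * (r k * |t|) := by
      rw [← abs_of_pos hk, ← abs_mul, mul_sub, hs, mul_div_cancel₀ _ hk.ne',
        show r k - a * r k = -(r k * (r k * t)) by rw [ha]; ring, abs_neg, abs_mul, abs_mul,
        abs_of_pos (hr k)]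
    rw [Real.norm_eq_abs, e, rescale, ← sub_div,
      show a * u (x0 + s • y) - u (x0 + r k • y) =
        a * (u (x0 + s • y) - u (x0 + r k • y)) + r k * t * u (x0 + r k • y) by rw [ha]; ring,
      abs_div, abs_of_pos (hr k), div_le_iff₀ (hr k)]
    calc |a * (u (x0 + s • y) - u (x0 + r k • y)) + r k * t * u (x0 + r k • y)|
        ≤ a * |u (x0 + s • y) - u (x0 + r k • y)| + r k * |t| * |u (x0 + r k • y)| := by
          refine (abs_add_le _ _).trans (le_of_eq ?_)
          rw [abs_mul, abs_mul, abs_mul, abs_of_pos hk, abs_of_pos (hr k)]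
      _ ≤ a * ((K : ℝ) * (|s - r k| * ‖y‖)) + r k * |t| * ((K : ℝ) * (r k * ‖y‖)) :=
          add_le_add (mul_le_mul_of_nonneg_left hb hk.le)
            (mul_le_mul_of_nonneg_left hc (mul_nonneg (hr k).le (abs_nonneg _)))
      _ = a * |s - r k| * ((K : ℝ) * ‖y‖) + r k * |t| * ((K : ℝ) * (r k * ‖y‖)) := by ring
      _ = 2 * (K : ℝ) * |t| * ‖y‖ * r k * r k := by rw [hsr]; ring
  exact sub_eq_zero.1 (tendsto_nhds_unique h1 h2)

/-- Module C: dimension reduction. -/
theorem dimRed (hB : Basics (d + 1)) (hH : HomogBlowUp (d + 1)) : DimRed d := by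
  intro _ hflat u hu hhom x0 hx0 hne ε hε
  obtain ⟨K, hK⟩ := hu.lip
  have hu0 : u x0 = 0 := hu.apply_free hx0
  obtain ⟨c, hc, hnd⟩ := hB.nondeg
  obtain ⟨r, hrdef⟩ : ∃ r : ℕ → ℝ, r = fun k : ℕ => 1 / ((k : ℝ) + 1) := ⟨_, rfl⟩
  have hr : ∀ k, 0 < r k := fun k => by rw [hrdef]; positivity
  have hr0 : Tendsto r atTop (𝓝 0) := by rw [hrdef]; exact tendsto_one_div_add_atTop_nhds_zero_nat
  obtain ⟨ψ, w, hψ, hw, hwh, hlim⟩ := hH u hu x0 hu0 r hr hr0
  set v : ℕ → Pt (d + 1) → ℝ := fun k => rescale u x0 (r (ψ k)) with hv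
  have hpt : ∀ y, Tendsto (fun k => v k y) atTop (𝓝 (w y)) := fun y =>
    (tendstoLocallyUniformlyOn_univ.2 hlim).tendsto_at (mem_univ y)
  have hinv := blowUp_invariant hK hhom hu0 (fun k => hr (ψ k)) (hr0.comp hψ.tendsto_atTop) hpt
  have hvmin : ∀ k, LMin (v k) := fun k => hu.rescale x0 (hr (ψ k))
  have hunif : ∀ S, IsCompact S → TendstoUniformlyOn v w atTop S :=
    tendstoLocallyUniformly_iff_forall_isCompact.1 hlim
  -- coordinates with `x0` along the last axis
  have he : ‖‖x0‖⁻¹ • x0‖ = 1 := by
    rw [norm_smul, norm_inv, norm_norm, inv_mul_cancel₀ (norm_ne_zero_iff.2 hne)]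
  obtain ⟨T, hT⟩ := exists_isometry (Fin.last d) he
  let z : Pt d → ℝ := fun y => w (T (join y 0))
  have hz : (fun x => z (headL d x)) = w ∘ T := by
    funext x
    have hx : join (headL d x) 0 = x + (-(x (Fin.last d))) • EuclideanSpace.single (Fin.last d) 1 := by
      ext i
      induction i using Fin.lastCases with
      | last => simp
      | cast i => simp [join, Fin.castSucc_ne_last]
    simp only [z, Function.comp_apply, hx, map_add, map_smul, hT, smul_smul]
    exact hinv _ _
  have hzmin : LMin z := LMin.slice (hz ▸ hw.comp_isometry T)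
  have hzh : Homog z := fun t ht y => by
    have : join (t • y) 0 = t • join y 0 := by
      ext i
      induction i using Fin.lastCases <;> simp [join]
    simp only [z, this, map_smul]
    exact hwh t ht _
  -- the blow-up does not vanish
  have hne0 : w ≠ 0 := by
    intro h0
    obtain ⟨k, hk⟩ := (Metric.tendstoUniformlyOn_iff.1
      (hunif _ (isCompact_closedBall (0 : Pt (d + 1)) 1)) (c * 1) (by positivity)).exists
    have hzero : ∀ y ∈ ball (0 : Pt (d + 1)) (1 / 2), v k y = 0 :=
      hnd _ (hvmin k) 0 1 one_pos fun y hy => by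
        have := hk y (ball_subset_closedBall hy)
        rw [h0, Pi.zero_apply, Real.dist_eq, zero_sub, abs_neg] at this
        exact (le_abs_self _).trans this.le
    have h0f : (0 : Pt (d + 1)) ∈ free (v k) := (mem_free_rescale (hr (ψ k))).2 (by simpa using hx0)
    obtain ⟨y, hy, hyp⟩ := _root_.mem_closure_iff.1 (frontier_subset_closure h0f) _ isOpen_ball
      (mem_ball_self (by norm_num : (0 : ℝ) < 1 / 2))
    exact lt_irrefl (0 : ℝ) (lt_of_lt_of_eq hyp (hzero y hy))
  obtain ⟨e, he1, hze⟩ : ∃ e : Pt d, ‖e‖ = 1 ∧ z = hp e := by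
    rcases hflat z hzmin hzh with h | h
    · refine absurd (funext fun x => ?_) hne0
      have := congrFun hz (T.symm x)
      simp only [h, Pi.zero_apply, Function.comp_apply, LinearIsometryEquiv.apply_symm_apply] at this
      exact this.symm
    · exact h
  set ν : Pt (d + 1) := T (join e 0) with hνdef
  have hν : ‖ν‖ = 1 := by
    rw [hνdef, T.norm_map, ← pow_left_inj₀ (norm_nonneg _) zero_le_one two_ne_zero, norm_sq_split]
    simp [he1]
  have hw : ∀ x, w x = max (∑ i, x i * ν i) 0 := fun x => by
    have h1 := congrFun hz (T.symm x)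
    simp only [hze, Function.comp_apply, LinearIsometryEquiv.apply_symm_apply] at h1
    rw [← h1, hp]
    congr 1
    have key : ∀ a b : Pt (d + 1), ∑ i, a i * b i = ⟪a, b⟫ := fun a b => by
      rw [Eps.inner_eq_sum]
    rw [key, show x = T (T.symm x) by simp, hνdef, T.inner_map_map, LinearIsometryEquiv.symm_apply_apply,
      ← key, Fin.sum_univ_castSucc]
    simp [join]
  -- flatness
  set δ := min (ε / 2) (c * (ε / 2)) with hδ
  obtain ⟨k, hk⟩ := (Metric.tendstoUniformlyOn_iff.1
    (hunif _ (isCompact_closedBall (0 : Pt (d + 1)) (1 + ε / 2))) δ (by positivity)).exists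
  refine ⟨r (ψ k), hr _, ν, hν, ?_⟩
  suffices h : Trapped (v k) 0 1 ε ν by
    have := (trapped_rescale (hr (ψ k))).1 h
    simpa using this
  intro y hy
  have hy' : y ∈ closedBall (0 : Pt (d + 1)) (1 + ε / 2) :=
    ball_subset_closedBall (ball_subset_ball (by linarith) hy)
  have hd := hk y hy'
  rw [Real.dist_eq, hw, abs_lt] at hd
  have hsum : ∑ i, (y i - (0 : Pt (d + 1)) i) * ν i = ∑ i, y i * ν i := by simp
  rw [hsum, mul_one]
  set l := ∑ i, y i * ν i with hl
  have hnn : 0 ≤ v k y := (hvmin k).nonneg y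
  refine ⟨?_, ?_⟩
  · show _ ≤ v k y
    rcases le_total (l - ε) 0 with h | h
    · rwa [max_eq_right h]
    · rw [max_eq_left h]
      rw [max_eq_left (by linarith : 0 ≤ l)] at hd
      linarith [min_le_left (ε / 2) (c * (ε / 2))]
  · show v k y ≤ _
    rcases le_or_gt l (-(ε / 2)) with h | h
    · have hzero : v k y = 0 := by
        refine hnd _ (hvmin k) y (ε / 2) (by positivity) (fun q hq => ?_) y (mem_ball_self (by positivity))
        have hqc : q ∈ closedBall (0 : Pt (d + 1)) (1 + ε / 2) := by
          rw [mem_closedBall]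
          linarith [dist_triangle q y 0, mem_ball.1 hq, mem_ball.1 hy]
        have hdq := hk q hqc
        rw [Real.dist_eq, hw, abs_lt] at hdq
        have hlq : ∑ i, q i * ν i ≤ 0 := by
          have e : ∑ i, q i * ν i - l = ⟪q - y, ν⟫ := by
            rw [hl, Eps.inner_eq_sum, ← Finset.sum_sub_distrib]
            exact Finset.sum_congr rfl fun i _ => by simp; ring
          have := (real_inner_le_norm (q - y) ν)
          rw [hν, mul_one, ← dist_eq_norm] at this
          linarith [mem_ball.1 hq]
        rw [max_eq_right hlq] at hdq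
        linarith [min_le_right (ε / 2) (c * (ε / 2))]
      rw [hzero]
      exact le_max_right _ _
    · refine le_max_of_le_left ?_
      rcases le_total l 0 with h0 | h0
      · rw [max_eq_right h0] at hd
        linarith [min_le_left (ε / 2) (c * (ε / 2))]
      · rw [max_eq_left h0] at hd
        linarith [min_le_left (ε / 2) (c * (ε / 2))]

end Vale.Agent.P098.Reg
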