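import Vale.Agent.P098.Reg.Blow.Compact

/-!
Invariance of minimisers under linear isometries, and slicing: a minimiser independent of the last
coordinate is a minimiser in one dimension less.
-/

noncomputable section

namespace Vale.Agent.P098.Reg

open MeasureTheory Set Filter Topology Metric
open scoped ContDiff NNReal RealInnerProductSpace

variable {d : ℕ}

theorem gradSq_eq_norm_sq (f : Pt d → ℝ) (x : Pt d) : gradSq f x = ‖fderiv ℝ f x‖ ^ 2 := by
  have h0 : 0 ≤ gradSq f x := Finset.sum_nonneg fun _ _ => sq_nonneg _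
  refine le_antisymm ?_ ?_
  · let v : Pt d := WithLp.toLp 2 fun i => pd i f x
    have h1 : fderiv ℝ f x v = gradSq f x := by
      rw [fderiv_eq_sum_pd]
      exact Finset.sum_congr rfl fun i _ => (sq _).symm
    have h2 : ‖v‖ ^ 2 = gradSq f x := Eps.norm_sq_eq v
    have h3 := (fderiv ℝ f x).le_opNorm v
    rw [h1, Real.norm_eq_abs, abs_of_nonneg h0] at h3
    nlinarith [norm_nonneg v, norm_nonneg (fderiv ℝ f x), sq_nonneg (‖fderiv ℝ f x‖ - ‖v‖)]
  · calc ‖fderiv ℝ f x‖ ^ 2 ≤ Real.sqrt (gradSq f x) ^ 2 :=
        pow_le_pow_left₀ (norm_nonneg _) (norm_fderiv_le_gradSq x) 2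
      _ = gradSq f x := Real.sq_sqrt h0

theorem gradSq_comp_isometry (T : Pt d ≃ₗᵢ[ℝ] Pt d) (f : Pt d → ℝ) (x : Pt d) :
    gradSq (f ∘ T) x = gradSq f (T x) := by
  simp only [gradSq_eq_norm_sq]
  have := T.toContinuousLinearEquiv.comp_right_fderiv (f := f) (x := x)
  rw [LinearIsometryEquiv.coe_toContinuousLinearEquiv] at this
  rw [this]
  exact congrArg (· ^ 2) (ContinuousLinearMap.opNorm_comp_linearIsometryEquiv _ T)

theorem energy_comp_isometry (T : Pt d ≃ₗᵢ[ℝ] Pt d) (f : Pt d → ℝ) (c : Pt d) (R : ℝ) :
    energy (f ∘ T) c R = energy f (T c) R := by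
  have hb : T ⁻¹' ball (T c) R = ball c R := by
    ext y; simp [mem_ball]
  unfold energy
  rw [← T.measurePreserving.setIntegral_preimage_emb T.toHomeomorph.measurableEmbedding _
    (ball (T c) R), hb]
  refine setIntegral_congr_fun measurableSet_ball fun y _ => ?_
  simp only [gradSq_comp_isometry, Function.comp_apply]
  congr 1

theorem LMin.comp_isometry {u : Pt d → ℝ} (h : LMin u) (T : Pt d ≃ₗᵢ[ℝ] Pt d) : LMin (u ∘ T) := by
  obtain ⟨K, hK⟩ := h.lip
  refine ⟨⟨_, hK.comp T.lipschitz⟩, fun x => h.nonneg _, fun c R v hv hv0 S hS hSR hvu => ?_⟩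
  obtain ⟨L, hL⟩ := hv
  have hsub : T '' S ⊆ ball (T c) R := by
    rintro _ ⟨y, hy, rfl⟩
    simpa [mem_ball, T.isometry.dist_eq] using hSR hy
  have hle := h.le_energy (T c) R (v ∘ T.symm) ⟨_, hL.comp T.symm.lipschitz⟩ (fun x => hv0 _)
    (T '' S) (hS.image T.continuous) hsub fun x hx => by
      have : T.symm x ∉ S := fun hm => hx ⟨_, hm, T.apply_symm_apply x⟩
      simp [hvu _ this]
  have e : (v ∘ T.symm) ∘ T = v := by funext x; simp
  rwa [← energy_comp_isometry, ← energy_comp_isometry, e] at hle

/-- An isometry sending the coordinate vector `j` to a given unit vector. -/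
theorem exists_isometry (j : Fin d) {e : Pt d} (he : ‖e‖ = 1) :
    ∃ T : Pt d ≃ₗᵢ[ℝ] Pt d, T (EuclideanSpace.single j 1) = e := by
  have ho : Orthonormal ℝ (({j} : Set (Fin d)).domRestrict fun _ => e) := by
    rw [orthonormal_iff_ite]
    rintro ⟨a, rfl⟩ ⟨b, rfl⟩
    simp [he]
  obtain ⟨b, hb⟩ := ho.exists_orthonormalBasis_extension_of_card_eq (by simp)
  exact ⟨b.repr.symm, by rw [OrthonormalBasis.repr_symm_single, hb j rfl]⟩

/-- All coordinates but the last one. -/
def headL (d : ℕ) : Pt (d + 1) →L[ℝ] Pt d :=
  ((EuclideanSpace.equiv (Fin d) ℝ).symm.toContinuousLinearMap).comp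
    (ContinuousLinearMap.pi fun i : Fin d =>
      EuclideanSpace.proj (𝕜 := ℝ) (ι := Fin (d + 1)) i.castSucc)

@[simp] theorem headL_apply (x : Pt (d + 1)) (i : Fin d) : headL d x i = x i.castSucc := rfl

/-- The point with given head and last coordinate. -/
def join (y : Pt d) (t : ℝ) : Pt (d + 1) := WithLp.toLp 2 (Fin.snoc (fun i => y i) t)

@[simp] theorem headL_join (y : Pt d) (t : ℝ) : headL d (join y t) = y := by
  ext i; simp [join]

@[simp] theorem join_last (y : Pt d) (t : ℝ) : join y t (Fin.last d) = t := by simp [join]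

theorem join_headL (x : Pt (d + 1)) : join (headL d x) (x (Fin.last d)) = x := by
  ext i
  induction i using Fin.lastCases <;> simp [join]

theorem norm_sq_split (x : Pt (d + 1)) : ‖x‖ ^ 2 = ‖headL d x‖ ^ 2 + x (Fin.last d) ^ 2 := by
  rw [Eps.norm_sq_eq, Eps.norm_sq_eq, Fin.sum_univ_castSucc]
  rfl

theorem dist_join (y y' : Pt d) (t : ℝ) : dist (join y t) (join y' t) = dist y y' := by
  rw [dist_eq_norm, dist_eq_norm, ← pow_left_inj₀ (norm_nonneg _) (norm_nonneg _) two_ne_zero,
    norm_sq_split, map_sub, headL_join, headL_join]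
  simp

theorem lipschitz_headL : LipschitzWith 1 (headL d) :=
  LipschitzWith.of_dist_le_mul fun x y => by
    rw [NNReal.coe_one, one_mul, dist_eq_norm, dist_eq_norm, ← map_sub]
    refine pow_le_pow_iff_left₀ (norm_nonneg _) (norm_nonneg _) two_ne_zero |>.1 ?_
    rw [norm_sq_split (x - y)]
    nlinarith [sq_nonneg ((x - y) (Fin.last d))]

theorem gradSq_comp_headL (f : Pt d → ℝ) (x : Pt (d + 1)) :
    gradSq (fun z => f (headL d z)) x = gradSq f (headL d x) := by
  by_cases hf : DifferentiableAt ℝ f (headL d x)
  · have h : HasFDerivAt (fun z => f (headL d z)) ((fderiv ℝ f (headL d x)).comp (headL d)) x :=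
      hf.hasFDerivAt.comp x (headL d).hasFDerivAt
    have e1 : ∀ i : Fin d, headL d (EuclideanSpace.single i.castSucc (1 : ℝ)) =
        EuclideanSpace.single i 1 := fun i => by
      ext j; simp
    have e2 : headL d (EuclideanSpace.single (Fin.last d) (1 : ℝ)) = 0 := by
      ext j; simp [Fin.castSucc_ne_last]
    simp only [gradSq, pd, h.fderiv, ContinuousLinearMap.comp_apply, Fin.sum_univ_castSucc, e1, e2,
      map_zero]
    simp
  · have hg : ¬DifferentiableAt ℝ (fun z => f (headL d z)) x := by
      refine fun h => hf ?_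
      let J : Pt d → Pt (d + 1) := fun y => join y (x (Fin.last d))
      have hJ : DifferentiableAt ℝ J (headL d x) := by
        refine differentiableAt_piLp 2 |>.2 fun i => ?_
        induction i using Fin.lastCases with
        | last => simp [J, join]
        | cast i => simpa [J, join] using
            (EuclideanSpace.proj (𝕜 := ℝ) (ι := Fin d) i).differentiableAt
      have hx : J (headL d x) = x := join_headL x
      have := (show DifferentiableAt ℝ (fun z => f (headL d z)) (J (headL d x)) by rwa [hx]).comp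
        (headL d x) hJ
      exact this.congr_of_eventuallyEq (Eventually.of_forall fun y => by simp [J])
    simp [gradSq, pd, fderiv_zero_of_not_differentiableAt hf,
      fderiv_zero_of_not_differentiableAt hg]

theorem dens0_congr {f g : Pt d → ℝ} {x : Pt d} (h : f =ᶠ[𝓝 x] g) : dens0 f x = dens0 g x := by
  simp only [dens0, gradSq, pd, h.fderiv_eq]
  congr 1
  by_cases hx : 0 < g x
  · rw [indic_one hx, indic_one (by rwa [h.self_of_nhds])]
  · rw [indic_zero (not_lt.1 hx), indic_zero (by rw [h.self_of_nhds]; exact not_lt.1 hx)]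

theorem dens0_comp_headL (f : Pt d → ℝ) (x : Pt (d + 1)) :
    dens0 (fun z => f (headL d z)) x = dens0 f (headL d x) := by
  simp only [dens0, gradSq_comp_headL]
  congr 1

/-- Slicing. -/
theorem LMin.slice {z : Pt d → ℝ} (h : LMin fun x : Pt (d + 1) => z (headL d x)) : LMin z := by
  obtain ⟨K, hK⟩ := h.lip
  have hz : LipschitzWith K z := LipschitzWith.of_dist_le_mul fun y y' => by
    simpa [dist_join] using hK.dist_le_mul (join y 0) (join y' 0)
  refine ⟨⟨K, hz⟩, fun y => by simpa using h.nonneg (join y 0), ?_⟩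
  intro c R ζ hζ hζ0 S hS hSR hζz
  obtain ⟨Lζ, hζ⟩ := hζ
  obtain ⟨δ, hδdef⟩ : ∃ δ : Pt d → ℝ, δ = fun y => dens0 ζ y - dens0 z y := ⟨_, rfl⟩
  have hδS : ∀ y, y ∉ S → δ y = 0 := fun y hy => by
    rw [hδdef]
    exact sub_eq_zero.2 (dens0_congr (eventually_of_mem (hS.isClosed.isOpen_compl.mem_nhds hy)
      fun w hw => hζz w hw))
  set Mz : ℝ := d * (Lζ : ℝ) ^ 2 + 1 + (d * (K : ℝ) ^ 2 + 1) with hMz
  have hδb : ∀ y, |δ y| ≤ Mz := fun y => by
    have := dens0_le hζ y
    have := dens0_le hz y
    have := dens0_nonneg (u := ζ) y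
    have := dens0_nonneg (u := z) y
    rw [hδdef, abs_le]
    constructor <;> simp only [hMz] <;> linarith
  have hfin : IsFiniteMeasure (volume.restrict (ball c R)) :=
    isFiniteMeasure_restrict.2 measure_ball_lt_top.ne
  have hint : ∀ {f : Pt d → ℝ} {L : ℝ≥0}, LipschitzWith L f → IntegrableOn (dens0 f) (ball c R) :=
    fun {f L} hf => Integrable.of_bound (measurable_dens0 hf.continuous).aestronglyMeasurable _
      (Eventually.of_forall fun x => by
        rw [Real.norm_eq_abs, abs_of_nonneg (dens0_nonneg (u := f) x)]; exact dens0_le hf x)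
  have hδI : ∫ y, δ y = energy ζ c R - energy z c R := by
    rw [← setIntegral_eq_integral_of_forall_compl_eq_zero (s := ball c R)
      (fun y hy => hδS y fun h' => hy (hSR h')), hδdef]
    exact integral_sub (hint hζ) (hint hz)
  obtain ⟨ρ, hρ⟩ := hS.isBounded.subset_closedBall 0
  let V : ℝ → Pt (d + 1) → ℝ := fun L x =>
    z (headL d x) + max 0 (min 1 (L + 1 - |x (Fin.last d)|)) * (ζ (headL d x) - z (headL d x))
  obtain ⟨B, hB0, hB⟩ : ∃ B : ℝ, 0 ≤ B ∧ ∀ y, |ζ y - z y| ≤ B := by
    obtain ⟨B, hB⟩ := hS.exists_bound_of_continuousOn (hζ.continuous.sub hz.continuous).continuousOn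
    refine ⟨max B 0, le_max_right _ _, fun y => ?_⟩
    by_cases hy : y ∈ S
    · exact le_max_of_le_left (by simpa using hB y hy)
    · simp [hζz y hy]
  set LV : ℝ≥0 := K + (B.toNNReal + (Lζ + K)) with hLV
  have hVL : ∀ L, LipschitzWith LV (V L) := fun L => by
    have h1 : LipschitzWith 1 fun x : Pt (d + 1) => max 0 (min 1 (L + 1 - |x (Fin.last d)|)) := by
      refine (LipschitzWith.const_min ?_ 1).const_max 0
      refine LipschitzWith.of_dist_le_mul fun x y => ?_
      rw [Real.dist_eq, NNReal.coe_one, one_mul, dist_eq_norm]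
      rw [show L + 1 - |x (Fin.last d)| - (L + 1 - |y (Fin.last d)|) =
        |y (Fin.last d)| - |x (Fin.last d)| by ring]
      refine (abs_abs_sub_abs_le_abs_sub _ _).trans ?_
      rw [abs_sub_comm]
      simpa using PiLp.norm_apply_le (x - y) (Fin.last d)
    have h2 : LipschitzWith (Lζ + K) fun x : Pt (d + 1) => ζ (headL d x) - z (headL d x) := by
      have := (hζ.comp (lipschitz_headL (d := d))).sub (hz.comp lipschitz_headL)
      simpa [mul_one, Function.comp_def] using this
    have h3 := lipschitz_cutoff_mul h1 (fun x => abs_le.2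
      ⟨by linarith [le_max_left (0 : ℝ) (min 1 (L + 1 - |x (Fin.last d)|))],
        max_le zero_le_one (min_le_left _ _)⟩) h2 (fun x _ => (hB _).trans (Real.le_coe_toNNReal B))
    rw [one_mul] at h3
    exact hK.add h3
  set M : ℝ := (d + 1 : ℕ) * (LV : ℝ) ^ 2 + 1 + ((d + 1 : ℕ) * (K : ℝ) ^ 2 + 1) with hM
  have hM0 : 0 ≤ M := by positivity
  have key : ∀ L : ℝ, 0 < L → 0 ≤ 2 * L * (energy ζ c R - energy z c R) + M * (2 * volume.real S) := by
    intro L hL
    let S' : Set (Pt (d + 1)) := {x | headL d x ∈ S ∧ |x (Fin.last d)| ≤ L + 1}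
    have hS'c : IsCompact S' := by
      refine Metric.isCompact_of_isClosed_isBounded
        ((hS.isClosed.preimage (headL d).continuous).inter (isClosed_le (EuclideanSpace.proj (𝕜 := ℝ) (ι := Fin (d + 1)) (Fin.last d)).continuous.abs continuous_const))
        ((isBounded_iff_subset_closedBall 0).2 ⟨|ρ| + (L + 1), fun x hx => ?_⟩)
      have h1 := hρ hx.1
      rw [mem_closedBall, dist_zero_right] at h1 ⊢
      have hh := norm_sq_split x
      nlinarith [sq_abs (x (Fin.last d)), hx.2, abs_nonneg (x (Fin.last d)), norm_nonneg (headL d x),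
        norm_nonneg x, le_abs_self ρ, abs_nonneg ρ]
    obtain ⟨R', hR'⟩ := hS'c.isBounded.subset_ball 0
    have hout : ∀ x, x ∉ S' → V L x = z (headL d x) := fun x hx => by
      by_cases h1 : headL d x ∈ S
      · have h2 : L + 1 < |x (Fin.last d)| := not_le.1 fun h => hx ⟨h1, h⟩
        simp only [V]
        rw [min_eq_right (by linarith), max_eq_left (by linarith), zero_mul, add_zero]
      · simp [V, hζz _ h1]
    have hV0 : ∀ x, 0 ≤ V L x := fun x => by
      have hc0 : 0 ≤ max 0 (min 1 (L + 1 - |x (Fin.last d)|)) := le_max_left _ _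
      have hc1 : max 0 (min 1 (L + 1 - |x (Fin.last d)|)) ≤ 1 := max_le zero_le_one (min_le_left _ _)
      simp only [V]
      nlinarith [hζ0 (headL d x), h.nonneg x, mul_nonneg hc0 (hζ0 (headL d x)),
        mul_nonneg (sub_nonneg.2 hc1) (h.nonneg x)]
    have hle := h.le_energy 0 R' (V L) ⟨LV, hVL L⟩ hV0 S' hS'c hR' hout
    let w : Pt (d + 1) → ℝ := fun x => z (headL d x)
    let D : Pt (d + 1) → ℝ := fun x => dens0 (V L) x - dens0 w x
    have hD0 : ∀ x, x ∉ S' → D x = 0 := fun x hx => sub_eq_zero.2 (dens0_congr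
      (eventually_of_mem (hS'c.isClosed.isOpen_compl.mem_nhds hx) fun y hy => hout y hy))
    have hDb : ∀ x, |D x| ≤ M := fun x => by
      have := dens0_le (hVL L) x
      have := dens0_le hK x
      have := dens0_nonneg (u := V L) x
      have := dens0_nonneg (u := w) x
      rw [abs_le, hM]
      constructor <;> simp only [D] <;> linarith
    have hDm : Measurable D :=
      (measurable_dens0 (hVL L).continuous).sub (measurable_dens0 hK.continuous)
    have hDi : Integrable D := by
      refine Integrable.mono' (g := S'.indicator fun _ => M)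
        ((integrable_indicator_iff hS'c.measurableSet).2
          (integrableOn_const (hs := hS'c.measure_lt_top.ne))) hDm.aestronglyMeasurable
        (Eventually.of_forall fun x => ?_)
      by_cases hx : x ∈ S'
      · rw [indicator_of_mem hx]; exact hDb x
      · simp [hD0 x hx, indicator_of_notMem hx]
    have hDI : 0 ≤ ∫ x, D x := by
      rw [← setIntegral_eq_integral_of_forall_compl_eq_zero (s := ball 0 R')
        fun y hy => hD0 y fun h' => hy (hR' h')]
      have i1 : ∀ {f : Pt (d + 1) → ℝ} {L : ℝ≥0}, LipschitzWith L f →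
          IntegrableOn (dens0 f) (ball 0 R') := fun {f L} hf =>
        have : IsFiniteMeasure (volume.restrict (ball (0 : Pt (d + 1)) R')) :=
          isFiniteMeasure_restrict.2 measure_ball_lt_top.ne
        Integrable.of_bound (measurable_dens0 hf.continuous).aestronglyMeasurable _
          (Eventually.of_forall fun x => by
            rw [Real.norm_eq_abs, abs_of_nonneg (dens0_nonneg (u := f) x)]; exact dens0_le hf x)
      rw [integral_sub (i1 (hVL L)) (i1 hK)]
      exact sub_nonneg.2 hle
    -- split off the last coordinate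
    let J : ℝ × Pt d → Pt (d + 1) := fun p => join p.2 p.1
    have e1 := (EuclideanSpace.volume_preserving_symm_measurableEquiv_toLp (Fin (d + 1)))
    have e2 := volume_preserving_piFinSuccAbove (fun _ : Fin (d + 1) => ℝ) (Fin.last d)
    let E : Pt (d + 1) ≃ᵐ ℝ × Pt d :=
      ((MeasurableEquiv.toLp 2 (Fin (d + 1) → ℝ)).symm.trans
        (MeasurableEquiv.piFinSuccAbove (fun _ : Fin (d + 1) => ℝ) (Fin.last d))).trans
        ((MeasurableEquiv.refl ℝ).prodCongr (MeasurableEquiv.toLp 2 (Fin d → ℝ)))
    have hE : MeasurePreserving E :=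
      (((MeasurePreserving.id volume).prod (PiLp.volume_preserving_toLp (Fin d))).comp e2).comp e1
    have hEJ : ∀ x, J (E x) = x := fun x => by
      have : E x = (x (Fin.last d), headL d x) := by
        refine Prod.ext rfl ?_
        ext i
        simp [E, MeasurableEquiv.piFinSuccAbove, MeasurableEquiv.prodCongr, Fin.init]
      simp [J, this, join_headL]
    have hJ : MeasurePreserving J := by
      have : J = E.symm := funext fun p => by
        conv_lhs => rw [← E.apply_symm_apply p]
        exact hEJ _
      rw [this]; exact hE.symm E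
    have hDJ : ∫ p, D (J p) = ∫ x, D x := by
      have hme : MeasurableEmbedding J := by
        have : J = E.symm := funext fun p => by
          conv_lhs => rw [← E.apply_symm_apply p]
          exact hEJ _
        rw [this]; exact E.symm.measurableEmbedding
      exact hJ.integral_comp hme D
    let I : Set ℝ := Ioo (-L) L
    let A : Set ℝ := Icc (-(L + 1)) (-L) ∪ Icc L (L + 1)
    have hSi : Integrable (S.indicator fun _ => (1 : ℝ)) :=
      (integrable_indicator_iff hS.measurableSet).2 (integrableOn_const (hs := hS.measure_lt_top.ne))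
    have hδi : Integrable δ := by
      refine Integrable.mono' (hSi.const_mul Mz) ?_ (Eventually.of_forall fun y => ?_)
      · rw [hδdef]
        exact ((measurable_dens0 hζ.continuous).sub (measurable_dens0 hz.continuous)).aestronglyMeasurable
      · by_cases hy : y ∈ S
        · simpa [indicator_of_mem hy] using hδb y
        · simp [hδS y hy, indicator_of_notMem hy]
    have hIi : Integrable (I.indicator fun _ => (1 : ℝ)) :=
      (integrable_indicator_iff measurableSet_Ioo).2 (integrableOn_const (hs := measure_Ioo_lt_top.ne))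
    have hAfin : volume A ≠ ⊤ := ((measure_union_le _ _).trans_lt
      (ENNReal.add_lt_top.2 ⟨measure_Icc_lt_top, measure_Icc_lt_top⟩)).ne
    have hAi : Integrable (A.indicator fun _ => (1 : ℝ)) :=
      (integrable_indicator_iff (measurableSet_Icc.union measurableSet_Icc)).2
        (integrableOn_const (hs := hAfin))
    have hbound : ∀ p : ℝ × Pt d, D (J p) ≤ I.indicator (fun _ => (1 : ℝ)) p.1 * δ p.2 +
        A.indicator (fun _ => (1 : ℝ)) p.1 * (M * S.indicator (fun _ => (1 : ℝ)) p.2) := by
      rintro ⟨t, y⟩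
      by_cases hI : t ∈ I
      · have hA : t ∉ A := by
          rintro (⟨h1, h2⟩ | ⟨h1, h2⟩) <;> linarith [hI.1, hI.2]
        have hev : V L =ᶠ[𝓝 (J (t, y))] fun x => ζ (headL d x) := by
          have hopen : IsOpen {x : Pt (d + 1) | |x (Fin.last d)| < L} :=
            isOpen_lt (EuclideanSpace.proj (𝕜 := ℝ) (ι := Fin (d + 1)) (Fin.last d)).continuous.abs continuous_const
          filter_upwards [hopen.mem_nhds (show |J (t, y) (Fin.last d)| < L by
            simp only [J, join_last]; exact abs_lt.2 hI)] with x hx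
          simp only [V]
          rw [min_eq_left (by linarith), max_eq_right zero_le_one, one_mul, add_sub_cancel]
        simp only [D, w, dens0_congr hev, dens0_comp_headL, indicator_of_mem hI,
          indicator_of_notMem hA, J, headL_join, one_mul, zero_mul, add_zero, hδdef, le_refl]
      · rw [indicator_of_notMem hI, zero_mul, zero_add]
        by_cases hS' : J (t, y) ∈ S'
        · have hy : y ∈ S := by simpa [J] using hS'.1
          have ht : |t| ≤ L + 1 := by simpa [J] using hS'.2
          have hA : t ∈ A := by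
            rw [abs_le] at ht
            by_cases h1 : L ≤ t
            · exact Or.inr ⟨h1, ht.2⟩
            · exact Or.inl ⟨ht.1, not_lt.1 fun h2 => hI ⟨h2, not_le.1 h1⟩⟩
          rw [indicator_of_mem hA, indicator_of_mem hy, one_mul, mul_one]
          exact (le_abs_self _).trans (hDb _)
        · rw [hD0 _ hS']
          exact mul_nonneg (indicator_nonneg (fun _ _ => zero_le_one) _)
            (mul_nonneg hM0 (indicator_nonneg (fun _ _ => zero_le_one) _))
    have hfinal : ∫ x, D x ≤ 2 * L * (energy ζ c R - energy z c R) + M * (2 * volume.real S) := by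
      rw [← hDJ]
      have hi1 : Integrable fun p : ℝ × Pt d => I.indicator (fun _ => (1 : ℝ)) p.1 * δ p.2 := hIi.mul_prod hδi
      have hi2 : Integrable fun p : ℝ × Pt d =>
          A.indicator (fun _ => (1 : ℝ)) p.1 * (M * S.indicator (fun _ => (1 : ℝ)) p.2) :=
        hAi.mul_prod (hSi.const_mul M)
      refine (integral_mono (hJ.integrable_comp hDi.aestronglyMeasurable |>.2 hDi) (hi1.add hi2)
        hbound).trans (le_of_eq_of_le (integral_add hi1 hi2) ?_)
      rw [Measure.volume_eq_prod, integral_prod_mul (fun t => I.indicator (fun _ => (1 : ℝ)) t) δ,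
        integral_prod_mul (fun t => A.indicator (fun _ => (1 : ℝ)) t)
          (fun y => M * S.indicator (fun _ => (1 : ℝ)) y), hδI]
      rw [integral_indicator_const _ measurableSet_Ioo,
        integral_indicator_const _ (measurableSet_Icc.union measurableSet_Icc), integral_const_mul,
        integral_indicator_const _ hS.measurableSet]
      simp only [smul_eq_mul, mul_one]
      rw [Real.volume_real_Ioo_of_le (by linarith)]
      have hA2 : volume.real A ≤ 2 := by
        refine (measureReal_union_le _ _).trans ?_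
        rw [Real.volume_real_Icc_of_le (by linarith), Real.volume_real_Icc_of_le (by linarith)]
        linarith
      nlinarith [mul_le_mul_of_nonneg_right hA2
        (mul_nonneg hM0 (measureReal_nonneg (μ := volume) (s := S)))]
    linarith
  by_contra hlt
  rw [not_le] at hlt
  have hΔ : 0 < energy z c R - energy ζ c R := sub_pos.2 hlt
  have hX : 0 ≤ M * (2 * volume.real S) :=
    mul_nonneg hM0 (mul_nonneg two_pos.le measureReal_nonneg)
  have h0 := key ((M * (2 * volume.real S) + 1) / (2 * (energy z c R - energy ζ c R)))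
    (div_pos (by linarith) (by linarith))
  have e : 2 * ((M * (2 * volume.real S) + 1) / (2 * (energy z c R - energy ζ c R))) *
      (energy ζ c R - energy z c R) = -(M * (2 * volume.real S) + 1) := by
    field_simp
    ring
  rw [e] at h0
  linarith

end Vale.Agent.P098.Reg
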