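import Vale.Agent.P098.Variation
import Vale.Agent.P098.Reg.Iface

/-!
First variations of a Lipschitz minimiser: the outer identity `∫ ∇u·∇(φu) = 0` and the inner
identity `∫_{u>0} ((|∇u|² + 1) div X - 2 ∇u·DX∇u) = 0`. No Rademacher theorem is needed: on the zero
set every competitor used has vanishing gradient.
-/

noncomputable section

namespace Vale.Agent.P098.Reg

open MeasureTheory Set Filter Topology Matrix
open scoped ContDiff NNReal

variable {d : ℕ} {u : Pt d → ℝ}

theorem LMin.continuous (h : LMin u) : Continuous u := h.lip.elim fun _ hK => hK.continuous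

theorem LMin.isOpen_pos (h : LMin u) : IsOpen {x | 0 < u x} :=
  isOpen_lt continuous_const h.continuous

theorem LMin.eq_zero (h : LMin u) {x : Pt d} (hx : ¬ 0 < u x) : u x = 0 :=
  le_antisymm (not_lt.1 hx) (h.nonneg x)

theorem LMin.pd_zero (h : LMin u) {x : Pt d} (hx : u x = 0) (i : Fin d) : pd i u x = 0 := by
  have : IsLocalMin u x := Eventually.of_forall fun y => hx ▸ h.nonneg y
  simp [pd, this.fderiv_eq_zero]

theorem Basics.diffAt (hB : Basics d) (h : LMin u) {x : Pt d} (hx : 0 < u x) :
    DifferentiableAt ℝ u x :=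
  ((hB.smooth u h).contDiffAt (h.isOpen_pos.mem_nhds hx)).differentiableAt (by simp)

theorem abs_pd_le_lip {K : ℝ≥0} (hK : LipschitzWith K u) (i : Fin d) (x : Pt d) : |pd i u x| ≤ K := by
  have h := (fderiv ℝ u x).le_opNorm (EuclideanSpace.single i (1 : ℝ))
  rw [Real.norm_eq_abs, EuclideanSpace.single, PiLp.norm_single, norm_one, mul_one] at h
  exact h.trans (norm_fderiv_le_of_lipschitz ℝ hK)

theorem measurable_pd' (i : Fin d) : Measurable (pd i u) :=
  measurable_fderiv_apply_const ℝ u _

theorem integrableOn_bounded {f : Pt d → ℝ} (hm : Measurable f) {M : ℝ} (hb : ∀ x, |f x| ≤ M)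
    {s : Set (Pt d)} (hs : volume s < ⊤) : IntegrableOn f s :=
  (integrableOn_const hs.ne (C := M)).mono' hm.aestronglyMeasurable
    (Eventually.of_forall fun x => by rw [Real.norm_eq_abs]; exact hb x)

/-- The energy density. -/
def dens0 (u : Pt d → ℝ) (x : Pt d) : ℝ :=
  gradSq u x + {y | 0 < u y}.indicator (fun _ => (1 : ℝ)) x

theorem dens0_nonneg (x : Pt d) : 0 ≤ dens0 u x :=
  add_nonneg (Finset.sum_nonneg fun _ _ => sq_nonneg _) (indicator_nonneg (fun _ _ => zero_le_one) x)

theorem dens0_le {K : ℝ≥0} (hK : LipschitzWith K u) (x : Pt d) :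
    dens0 u x ≤ d * (K : ℝ) ^ 2 + 1 := by
  refine add_le_add ?_ (indicator_le_self' (fun _ _ => zero_le_one) x |>.trans le_rfl)
  calc gradSq u x ≤ ∑ _i : Fin d, (K : ℝ) ^ 2 := Finset.sum_le_sum fun i _ => by
        rw [← sq_abs]; exact pow_le_pow_left₀ (abs_nonneg _) (abs_pd_le_lip hK i x) 2
    _ = _ := by simp

theorem measurable_dens0 (hc : Continuous u) : Measurable (dens0 u) :=
  (Finset.measurable_sum _ fun i _ => (measurable_pd' i).pow_const 2).add
    (measurable_const.indicator (isOpen_lt continuous_const hc).measurableSet)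

theorem LMin.dens0_eq_zero (h : LMin u) {x : Pt d} (hx : u x = 0) : dens0 u x = 0 := by
  simp [dens0, gradSq, h.pd_zero hx, indicator, hx]

theorem energy_eq (c : Pt d) (R : ℝ) : energy u c R = ∫ x in Metric.ball c R, dens0 u x := rfl

/-- A function that is at least `-C t²` near `0` and affine in `t` has zero slope. -/
theorem slope_zero {a C δ : ℝ} (hδ : 0 < δ) (h : ∀ t : ℝ, |t| ≤ δ → 0 ≤ t * a + t ^ 2 * C) :
    a = 0 := by
  by_contra ha
  have hC : 0 < |a| / (|C| + 1) := by positivity
  set s := min δ (|a| / (2 * (|C| + 1))) with hs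
  have hs0 : 0 < s := lt_min hδ (by positivity)
  have hsC : s * (|C| + 1) ≤ |a| / 2 := by
    have := min_le_right δ (|a| / (2 * (|C| + 1)))
    rw [← hs, le_div_iff₀ (by positivity)] at this
    linarith
  rcases lt_or_gt_of_ne ha with ha' | ha'
  · have h1 := h s (by rw [abs_of_pos hs0]; exact min_le_left _ _)
    rw [abs_of_neg ha'] at hsC
    nlinarith [mul_le_mul_of_nonneg_left (le_abs_self C) (sq_nonneg s)]
  · have h1 := h (-s) (by rw [abs_neg, abs_of_pos hs0]; exact min_le_left _ _)
    rw [abs_of_pos ha'] at hsC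
    nlinarith [mul_le_mul_of_nonneg_left (le_abs_self C) (sq_nonneg s)]

theorem integral_three {s : Set (Pt d)} {f g k : Pt d → ℝ} (a b : ℝ) (hf : IntegrableOn f s)
    (hg : IntegrableOn g s) (hk : IntegrableOn k s) :
    ∫ x in s, (f x + a * g x + b * k x) =
      (∫ x in s, f x) + a * (∫ x in s, g x) + b * ∫ x in s, k x := by
  rw [integral_add (f := fun x => f x + a * g x) (g := fun x => b * k x)
      (hf.add (hg.const_mul a)) (hk.const_mul b),
    integral_add (f := f) (g := fun x => a * g x) hf (hg.const_mul a), integral_const_mul,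
    integral_const_mul]

/-- Outer variation: `∫ ∇u·∇(φu) = 0` for every test function `φ`. -/
theorem outer_identity (hB : Basics d) (h : LMin u) {φ : Pt d → ℝ} (hφ : ContDiff ℝ 1 φ)
    (hc : HasCompactSupport φ) :
    ∫ x, ∑ i, (φ x * pd i u x ^ 2 + u x * pd i u x * pd i φ x) = 0 := by
  classical
  obtain ⟨K, hK⟩ := h.lip
  obtain ⟨R, hR⟩ := hc.isCompact.isBounded.subset_ball 0
  obtain ⟨Kφ, hKφ⟩ := hφ.lipschitzWith_of_hasCompactSupport hc one_ne_zero
  obtain ⟨M, hM⟩ := hφ.continuous.bounded_above_of_compact_support hc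
  obtain ⟨Mu, hMu⟩ := hc.isCompact.exists_bound_of_continuousOn h.continuous.continuousOn
  have hM0 : 0 ≤ M := le_trans (norm_nonneg _) (hM 0)
  let v : ℝ → Pt d → ℝ := fun t x => u x * (1 + t * φ x)
  have hpos : ∀ t, |t| ≤ 1 / (M + 1) → ∀ x, 0 < 1 + t * φ x := fun t ht x => by
    have h1 : |t * φ x| ≤ 1 / (M + 1) * M := by
      rw [abs_mul]; exact mul_le_mul ht (by simpa using hM x) (abs_nonneg _) (by positivity)
    have h2 : 1 / (M + 1) * M < 1 := by
      rw [div_mul_eq_mul_div, one_mul, div_lt_one (by positivity)]; linarith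
    linarith [neg_abs_le (t * φ x)]
  have hlip : ∀ t, ∃ L, LipschitzWith L (v t) := fun t => by
    have hg : ∃ L, LipschitzWith L fun x => u x * φ x := by
      refine ⟨Real.toNNReal ((|Mu| * Kφ + M * K) + 0), LipschitzWith.of_dist_le_mul fun x y => ?_⟩
      rw [Real.coe_toNNReal _ (by positivity), add_zero, Real.dist_eq]
      have key : ∀ x y : Pt d, x ∈ tsupport φ →
          |u x * φ x - u y * φ y| ≤ (|Mu| * Kφ + M * K) * dist x y := fun x y hx => by
        have e : u x * φ x - u y * φ y = u x * (φ x - φ y) + φ y * (u x - u y) := by ring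
        rw [e]
        refine (abs_add_le _ _).trans ?_
        rw [abs_mul, abs_mul, add_mul, mul_assoc, mul_assoc]
        refine add_le_add (mul_le_mul ((hMu x hx).trans (le_abs_self _)) ?_ (abs_nonneg _)
          (abs_nonneg _)) (mul_le_mul (hM y) ?_ (abs_nonneg _) hM0)
        · rw [← Real.dist_eq]; exact hKφ.dist_le_mul x y
        · rw [← Real.dist_eq]; exact hK.dist_le_mul x y
      by_cases hx : x ∈ tsupport φ
      · exact key x y hx
      by_cases hy : y ∈ tsupport φ
      · rw [abs_sub_comm, dist_comm]; exact key y x hy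
      · simp [image_eq_zero_of_notMem_tsupport hx, image_eq_zero_of_notMem_tsupport hy]
        positivity
    obtain ⟨L, hL⟩ := hg
    refine ⟨K + ‖t‖₊ * L, LipschitzWith.of_dist_le_mul fun x y => ?_⟩
    rw [Real.dist_eq, NNReal.coe_add, NNReal.coe_mul, coe_nnnorm, add_mul, mul_assoc]
    have e : v t x - v t y = (u x - u y) + t * (u x * φ x - u y * φ y) := by simp only [v]; ring
    rw [e]
    refine (abs_add_le _ _).trans (add_le_add (by rw [← Real.dist_eq]; exact hK.dist_le_mul x y) ?_)
    rw [abs_mul, Real.norm_eq_abs]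
    exact mul_le_mul_of_nonneg_left (by rw [← Real.dist_eq]; exact hL.dist_le_mul x y) (abs_nonneg _)
  let A : Pt d → ℝ := fun x => ∑ i, (φ x * pd i u x ^ 2 + u x * pd i u x * pd i φ x)
  let B : Pt d → ℝ := fun x => ∑ i, (φ x * pd i u x + u x * pd i φ x) ^ 2
  have hdens : ∀ t, |t| ≤ 1 / (M + 1) → ∀ x,
      dens0 (v t) x = dens0 u x + t * (2 * A x) + t ^ 2 * B x := fun t ht x => by
    by_cases hx : 0 < u x
    · have hpd : ∀ i, pd i (v t) x = pd i u x + t * (φ x * pd i u x + u x * pd i φ x) := fun i => by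
        have hφd : DifferentiableAt ℝ φ x := hφ.differentiable one_ne_zero x
        show pd i (fun y => u y * (1 + t * φ y)) x = _
        rw [pd_mul (hB.diffAt h hx) ((differentiableAt_const _).fun_add (hφd.const_mul t)),
          pd_add (differentiableAt_const _) (hφd.const_mul t), pd_const, pd_const_mul t hφd]
        ring
      have hvx : 0 < v t x := mul_pos hx (hpos t ht x)
      simp only [dens0, gradSq, hpd, A, B, indicator, mem_ofPred_eq, hx, hvx, if_true,
        Finset.mul_sum]
      rw [add_right_comm (∑ i, pd i u x ^ 2) 1 _, add_right_comm _ 1 _, add_left_inj,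
        ← Finset.sum_add_distrib, ← Finset.sum_add_distrib]
      exact Finset.sum_congr rfl fun i _ => by ring
    · have hu0 := h.eq_zero hx
      have hv0 : v t x = 0 := by simp [v, hu0]
      have hg : gradSq (v t) x = 0 :=
        Cone.gradSq_of_min (fun y => mul_nonneg (h.nonneg y) (hpos t ht y).le) hv0
      have hi : {y | 0 < v t y}.indicator (fun _ => (1 : ℝ)) x = 0 := by simp [indicator, hv0]
      rw [dens0, hg, hi, h.dens0_eq_zero hu0]
      simp [A, B, h.pd_zero hu0, hu0]
  have houtφ : ∀ x, x ∉ tsupport φ → φ x = 0 ∧ ∀ i, pd i φ x = 0 := fun x hx =>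
    ⟨image_eq_zero_of_notMem_tsupport hx, fun i => by
      rw [pd_congr (g := fun _ => (0 : ℝ)) (notMem_tsupport_iff_eventuallyEq.1 hx), pd_const]⟩
  have hAm : Measurable A := Finset.measurable_sum _ fun i _ =>
    (hφ.continuous.measurable.mul ((measurable_pd' i).pow_const 2)).add
      ((h.continuous.measurable.mul (measurable_pd' i)).mul (measurable_pd' i))
  have hBm : Measurable B := Finset.measurable_sum _ fun i _ =>
    ((hφ.continuous.measurable.mul (measurable_pd' i)).add
      (h.continuous.measurable.mul (measurable_pd' i))).pow_const 2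
  have hbd : ∀ (x : Pt d) i, |u x * pd i φ x| ≤ |Mu| * Kφ := fun x i => by
    by_cases hx : x ∈ tsupport φ
    · rw [abs_mul]
      exact mul_le_mul ((hMu x hx).trans (le_abs_self _)) (abs_pd_le_lip hKφ i x) (abs_nonneg _)
        (abs_nonneg _)
    · simp [(houtφ x hx).2 i]; positivity
  have hAb : ∀ x, |A x| ≤ ∑ _i : Fin d, (M * (K : ℝ) ^ 2 + |Mu| * Kφ * K) := fun x => by
    refine (Finset.abs_sum_le_sum_abs _ _).trans (Finset.sum_le_sum fun i _ => ?_)
    refine (abs_add_le _ _).trans (add_le_add ?_ ?_)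
    · rw [abs_mul, abs_pow]
      exact mul_le_mul (hM x) (pow_le_pow_left₀ (abs_nonneg _) (abs_pd_le_lip hK i x) 2) (by positivity)
        hM0
    · rw [show u x * pd i u x * pd i φ x = u x * pd i φ x * pd i u x by ring, abs_mul]
      exact mul_le_mul (hbd x i) (abs_pd_le_lip hK i x) (abs_nonneg _) (by positivity)
  have hBb : ∀ x, |B x| ≤ ∑ _i : Fin d, (M * K + |Mu| * Kφ) ^ 2 := fun x => by
    rw [abs_of_nonneg (Finset.sum_nonneg fun _ _ => sq_nonneg _)]
    refine Finset.sum_le_sum fun i _ => ?_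
    rw [← sq_abs]
    refine pow_le_pow_left₀ (abs_nonneg _) ((abs_add_le _ _).trans (add_le_add ?_ (hbd x i))) 2
    rw [abs_mul]
    exact mul_le_mul (hM x) (abs_pd_le_lip hK i x) (abs_nonneg _) hM0
  have hball : volume (Metric.ball (0 : Pt d) R) < ⊤ := measure_ball_lt_top
  have hi0 := integrableOn_bounded (measurable_dens0 h.continuous)
    (fun x => by rw [abs_of_nonneg (dens0_nonneg x)]; exact dens0_le hK x) hball
  have hiA := (integrableOn_bounded hAm hAb hball).const_mul 2
  have hiB := integrableOn_bounded hBm hBb hball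
  have key : ∀ t : ℝ, |t| ≤ 1 / (M + 1) →
      0 ≤ t * (∫ x in Metric.ball 0 R, 2 * A x) + t ^ 2 * ∫ x in Metric.ball 0 R, B x := fun t ht => by
    have hle := h.le_energy 0 R (v t) (hlip t) (fun x => mul_nonneg (h.nonneg x) (hpos t ht x).le) _
      hc.isCompact hR fun x hx => by simp [v, (houtφ x hx).1]
    simp only [energy_eq, hdens t ht] at hle
    rw [integral_three t (t ^ 2) hi0 hiA hiB] at hle
    linarith
  have h0 := slope_zero (by positivity) key
  rw [integral_const_mul] at h0
  rw [← setIntegral_eq_integral_of_forall_compl_eq_zero (s := Metric.ball (0 : Pt d) R) fun x hx => ?_]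
  · exact (mul_eq_zero.1 h0).resolve_left two_ne_zero
  · have := houtφ x fun hx' => hx (hR hx')
    simp [this.1, this.2]

/-- Gradient in the moved coordinates. -/
def qv (u : Pt d → ℝ) (X : Fin d → Pt d → ℝ) (t : ℝ) (x : Pt d) : Fin d → ℝ :=
  (fun i => pd i u x) ᵥ* (1 + t • Cone.bMat X x)⁻¹

/-- Energy density pulled back by `x ↦ x + t X x`. -/
def densT (u : Pt d → ℝ) (X : Fin d → Pt d → ℝ) (t : ℝ) (x : Pt d) : ℝ :=
  if 0 < u x then (∑ j, qv u X t x j ^ 2 + 1) * (1 + t • Cone.bMat X x).det else 0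

/-- The energy of the competitor `u ∘ (id + t X)⁻¹`. -/
theorem inner_competitor (hB : Basics d) (h : LMin u) {X : Fin d → Pt d → ℝ}
    (hX : ∀ i, ContDiff ℝ 2 (X i)) (hc : ∀ i, HasCompactSupport (X i)) {R : ℝ}
    (hR : ∀ i, tsupport (X i) ⊆ Metric.ball 0 R) {K : ℝ≥0}
    (hK : LipschitzWith K fun x => WithLp.toLp 2 (fun i => X i x) (V := Fin d → ℝ)) {t : ℝ}
    (ht : |t| * K < 1) (hdet : ∀ x, 0 < (1 + t • Cone.bMat X x).det) :
    energy u 0 R ≤ ∫ x in Metric.ball 0 R, densT u X t x := by
  classical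
  set V : Pt d → Pt d := fun x => WithLp.toLp 2 (fun i => X i x) with hVdef
  have hlow : ∀ x y, (1 - |t| * K) * dist x y ≤ dist (Cone.phi X t x) (Cone.phi X t y) := fun x y => by
    have hL := hK.dist_le_mul x y
    have h1 : x - y = (Cone.phi X t x - Cone.phi X t y) - t • (V x - V y) := by
      simp only [Cone.phi, V, smul_sub]; abel
    have h2 : ‖x - y‖ ≤ ‖Cone.phi X t x - Cone.phi X t y‖ + |t| * ‖V x - V y‖ := by
      rw [h1]; exact (norm_sub_le _ _).trans_eq (by rw [norm_smul, Real.norm_eq_abs])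
    simp only [dist_eq_norm] at hL ⊢
    have := mul_le_mul_of_nonneg_left hL (abs_nonneg t)
    linarith
  have h1K : 0 < 1 - |t| * K := by linarith
  have hinj : Function.Injective (Cone.phi X t) := fun x y he => by
    have := hlow x y
    rw [he, dist_self] at this
    exact dist_le_zero.1 (nonpos_of_mul_nonpos_right this h1K)
  have hsur : Function.Surjective (Cone.phi X t) := fun y => by
    have hct : ContractingWith (‖t‖₊ * K) fun z => y - t • V z := by
      refine ⟨by rw [← NNReal.coe_lt_coe]; simpa using ht, LipschitzWith.of_dist_le_mul fun a b => ?_⟩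
      rw [dist_eq_norm, show y - t • V a - (y - t • V b) = t • (V b - V a) by rw [smul_sub]; abel,
        norm_smul, NNReal.coe_mul, coe_nnnorm, mul_assoc]
      refine mul_le_mul_of_nonneg_left ?_ (norm_nonneg _)
      rw [norm_sub_rev, ← dist_eq_norm]
      exact hK.dist_le_mul a b
    refine ⟨hct.fixedPoint _, ?_⟩
    have := hct.fixedPoint_isFixedPt
    simp only [Function.IsFixedPt] at this
    simp only [Cone.phi]
    conv_lhs => arg 1; rw [← this]
    simp [V]
  let σ := Function.surjInv hsur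
  have hσ : ∀ y, Cone.phi X t (σ y) = y := Function.surjInv_eq hsur
  have hσ' : ∀ x, σ (Cone.phi X t x) = x := fun x => hinj (hσ _)
  have hσL : LipschitzWith (Real.toNNReal (1 / (1 - |t| * K))) σ :=
    LipschitzWith.of_dist_le_mul fun a b => by
      rw [Real.coe_toNNReal _ (by positivity), div_mul_eq_mul_div, le_div_iff₀ h1K, one_mul,
        mul_comm]
      exact (hlow _ _).trans_eq (by rw [hσ, hσ])
  set S : Set (Pt d) := ⋃ i, tsupport (X i) with hSdef
  have hfix : ∀ x, x ∉ S → Cone.phi X t x = x := fun x hx =>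
    Cone.phi_eq_self fun i hi => hx (mem_iUnion.2 ⟨i, hi⟩)
  have hSball : S ⊆ Metric.ball 0 R := iUnion_subset hR
  obtain ⟨Ku, hKu⟩ := h.lip
  let v : Pt d → ℝ := fun y => u (σ y)
  have hmain := h.le_energy 0 R v ⟨_, hKu.comp hσL⟩ (fun y => h.nonneg _) S
    (isCompact_iUnion fun i => hc i) hSball
    (fun y hy => by
      have : σ y = y := by
        conv_lhs => rw [← hfix y hy]
        rw [hσ']
      simp [v, this])
  refine hmain.trans (le_of_eq ?_)
  have himg : Cone.phi X t '' Metric.ball 0 R = Metric.ball 0 R := by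
    refine Subset.antisymm ?_ ?_
    · rintro _ ⟨x, hx, rfl⟩
      by_contra hcon
      have : Cone.phi X t (Cone.phi X t x) = Cone.phi X t x := hfix _ fun hh => hcon (hSball hh)
      rw [hinj this] at hcon
      exact hcon hx
    · intro y hy
      refine ⟨σ y, ?_, hσ y⟩
      by_contra hcon
      have := hfix _ fun hh => hcon (hSball hh)
      rw [hσ] at this
      exact hcon (this ▸ hy)
  have hXd : ∀ x i, DifferentiableAt ℝ (X i) x := fun x i => (hX i).differentiable two_ne_zero x
  have hVd : ∀ x, HasFDerivAt (Cone.phi X t) (fderiv ℝ (Cone.phi X t) x) x := fun x => by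
    have hV : DifferentiableAt ℝ V x := (differentiableAt_euclidean).2 (hXd x)
    have : DifferentiableAt ℝ (fun z => z + t • V z) x := differentiableAt_id.add (hV.const_smul t)
    exact this.hasFDerivAt
  have hentry : ∀ x i j, fderiv ℝ (Cone.phi X t) x (EuclideanSpace.single j 1) i
      = (1 + t • Cone.bMat X x) i j := fun x i j => by
    have h1 : HasFDerivAt (fun z => Cone.phi X t z i)
        ((EuclideanSpace.proj (𝕜 := ℝ) (ι := Fin d) i).comp (fderiv ℝ (Cone.phi X t) x)) x :=
      (EuclideanSpace.proj (𝕜 := ℝ) (ι := Fin d) i).hasFDerivAt.comp x (hVd x)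
    have h2 : pd j (fun z => Cone.phi X t z i) x
        = fderiv ℝ (Cone.phi X t) x (EuclideanSpace.single j 1) i := by
      simp [pd, h1.fderiv]
    rw [← h2, show (fun z => Cone.phi X t z i) = fun z => z i + t * X i z from
      funext fun z => by simp [Cone.phi],
      pd_add ((Cone.contDiff_coord (n := 1) i).differentiable one_ne_zero x) ((hXd x i).const_mul t),
      pd_const_mul t (hXd x i), pd_apply]
    simp [Matrix.one_apply, Cone.bMat, Cone.bX]
  have hdetD : ∀ x, (fderiv ℝ (Cone.phi X t) x).det = (1 + t • Cone.bMat X x).det := fun x => by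
    rw [ContinuousLinearMap.det, ← LinearMap.det_toMatrix (EuclideanSpace.basisFun (Fin d) ℝ).toBasis]
    congr 1
    ext i j
    rw [LinearMap.toMatrix_apply]
    simpa using hentry x i j
  rw [energy_eq]
  conv_lhs => rw [← himg]
  rw [integral_image_eq_integral_abs_det_fderiv_smul volume measurableSet_ball
    (fun x _ => (hVd x).hasFDerivWithinAt) hinj.injOn]
  refine setIntegral_congr_fun measurableSet_ball fun x _ => ?_
  simp only [smul_eq_mul, hdetD, abs_of_pos (hdet x)]
  have hv0 : v (Cone.phi X t x) = u x := by simp [v, hσ']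
  by_cases hx : 0 < u x
  · rw [densT, if_pos hx, dens0, indicator_of_mem (show Cone.phi X t x ∈ {y | 0 < v y} by
      show 0 < v _; rw [hv0]; exact hx)]
    set L := fderiv ℝ (Cone.phi X t) x
    have hu : IsUnit (L : Pt d →ₗ[ℝ] Pt d) :=
      (LinearMap.isUnit_iff_isUnit_det _).2 (isUnit_iff_ne_zero.2 (by
        have := hdetD x; rw [ContinuousLinearMap.det] at this; rw [this]; exact (hdet x).ne'))
    let eL : Pt d ≃L[ℝ] Pt d :=
      (LinearEquiv.ofBijective (L : Pt d →ₗ[ℝ] _) ((Module.End.isUnit_iff _).1 hu)).toContinuousLinearEquiv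
    have heL : (eL : Pt d →L[ℝ] Pt d) = L := by
      ext z; rfl
    have hf : HasFDerivAt (Cone.phi X t) (eL : Pt d →L[ℝ] _) (σ (Cone.phi X t x)) := by
      rw [heL, hσ']; exact hVd x
    have hσd := hf.of_local_left_inverse hσL.continuous.continuousAt (Eventually.of_forall hσ)
    have hud : DifferentiableAt ℝ u (σ (Cone.phi X t x)) := by
      rw [hσ']; exact hB.diffAt h hx
    have hcomp : DifferentiableAt ℝ v (Cone.phi X t x) :=
      hud.comp (Cone.phi X t x) hσd.differentiableAt
    have hq : (fun i => pd i v (Cone.phi X t x)) ᵥ* (1 + t • Cone.bMat X x)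
        = fun j => pd j u x := by
      funext j
      have h1 : HasFDerivAt (fun z => v (Cone.phi X t z))
          ((fderiv ℝ v (Cone.phi X t x)).comp L) x :=
        HasFDerivAt.comp (g := v) (f := Cone.phi X t) x hcomp.hasFDerivAt (hVd x)
      have h2 : (fun z => v (Cone.phi X t z)) = u := funext fun z => by simp [v, hσ']
      rw [h2] at h1
      show _ = fderiv ℝ u x (EuclideanSpace.single j 1)
      rw [h1.fderiv, ContinuousLinearMap.comp_apply, fderiv_eq_sum_pd]
      simp only [Matrix.vecMul, dotProduct]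
      exact Finset.sum_congr rfl fun i _ => by rw [mul_comm, ← hentry x i j]
    have hq' : qv u X t x = fun i => pd i v (Cone.phi X t x) := by
      simp only [qv]
      rw [← hq, Matrix.vecMul_vecMul,
        Matrix.mul_nonsing_inv _ (isUnit_iff_ne_zero.2 (hdet x).ne'), Matrix.vecMul_one]
    simp only [hq', gradSq]
    ring
  · rw [densT, if_neg hx, dens0, indicator_of_notMem (show Cone.phi X t x ∉ {y | 0 < v y} by
      show ¬ 0 < v _; rw [hv0, h.eq_zero hx]; exact lt_irrefl _),
      Cone.gradSq_of_min (f := v) (fun y => h.nonneg _) (by rw [hv0, h.eq_zero hx])]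
    simp

/-- The inner variation density. -/
def innerDens (u : Pt d → ℝ) (X : Fin d → Pt d → ℝ) (x : Pt d) : ℝ :=
  dens0 u x * (∑ i, pd i (X i) x) - 2 * ∑ i, ∑ j, pd i u x * pd j u x * pd j (X i) x

/-- Inner variation: `∫ ((|∇u|² + 1_{u>0}) div X - 2 ∇u·DX∇u) = 0`. -/
theorem inner_identity (hB : Basics d) (h : LMin u) {X : Fin d → Pt d → ℝ}
    (hX : ∀ i, ContDiff ℝ 2 (X i)) (hc : ∀ i, HasCompactSupport (X i)) :
    ∫ x, innerDens u X x = 0 := by
  classical
  obtain ⟨Ku, hKu⟩ := h.lip
  set S : Set (Pt d) := ⋃ i, tsupport (X i) with hSdef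
  have hSc : IsCompact S := isCompact_iUnion fun i => hc i
  obtain ⟨R, hR⟩ := hSc.isBounded.subset_ball 0
  have hV1 : ContDiff ℝ 1 (fun x => WithLp.toLp 2 (fun i => X i x) (V := Fin d → ℝ)) :=
    contDiff_euclidean.2 fun i => (hX i).of_le (by norm_num)
  have hVc : HasCompactSupport (fun x => WithLp.toLp 2 (fun i => X i x) (V := Fin d → ℝ)) := by
    refine HasCompactSupport.intro hSc fun x hx => ?_
    have : (fun i => X i x) = 0 :=
      funext fun i => image_eq_zero_of_notMem_tsupport fun h => hx (mem_iUnion.2 ⟨i, h⟩)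
    simp [this]
  obtain ⟨K, hK⟩ := ContDiff.lipschitzWith_of_hasCompactSupport hVc hV1 one_ne_zero
  have hbc : Continuous (Cone.bMat X) := Cone.continuous_bMat hX
  obtain ⟨c, hcc, hdet, -⟩ := det_exp hbc
  obtain ⟨c0, hc0⟩ := ((isCompact_Icc (a := (-1 : ℝ)) (b := 1)).prod hSc).exists_bound_of_continuousOn
    hcc.continuousOn
  obtain ⟨b0, hb0⟩ : ∃ b0 : ℝ, 0 ≤ b0 ∧ ∀ x i j, |Cone.bMat X x i j| ≤ b0 := by
    have : ∀ i j, ∃ b, ∀ x, |Cone.bMat X x i j| ≤ b := fun i j => by
      obtain ⟨b, hb⟩ := hSc.exists_bound_of_continuousOn (hbc.matrix_elem i j).continuousOn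
      refine ⟨max b 0, fun x => ?_⟩
      by_cases hx : x ∈ S
      · exact (hb x hx).trans (le_max_left _ _)
      · rw [Cone.bMat_zero fun i hi => hx (mem_iUnion.2 ⟨i, hi⟩)]; simp
    choose b hb using this
    refine ⟨∑ i, ∑ j, |b i j|, by positivity, fun x i j => (hb i j x).trans ((le_abs_self _).trans ?_)⟩
    exact (Finset.single_le_sum (f := fun j => |b i j|) (fun _ _ => abs_nonneg _)
      (Finset.mem_univ j)).trans (Finset.single_le_sum (f := fun i => ∑ j, |b i j|)
        (fun _ _ => Finset.sum_nonneg fun _ _ => abs_nonneg _) (Finset.mem_univ i))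
  have hb00 : 0 ≤ b0 := hb0.1
  set δ : ℝ := 1 / (2 * ((d : ℝ) * b0 + 1) + 2 * K + 2 * |c0| + 2) with hδdef
  have hδ : 0 < δ := by positivity
  have hδ1 : δ * (2 * ((d : ℝ) * b0 + 1) + 2 * K + 2 * |c0| + 2) = 1 :=
    div_mul_cancel₀ _ (by positivity)
  have hδle : δ ≤ 1 := by
    have := mul_nonneg hδ.le (show (0 : ℝ) ≤ (d : ℝ) * b0 + K + |c0| by positivity)
    nlinarith
  have hc0' : ∀ t : ℝ, |t| ≤ δ → ∀ x ∈ S, |c (t, x)| ≤ |c0| := fun t ht x hx =>
    (hc0 (t, x) ⟨abs_le.1 (ht.trans hδle), hx⟩).trans (le_abs_self _)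
  have htr : ∀ x, |(Cone.bMat X x).trace| ≤ (d : ℝ) * b0 := fun x => by
    simp only [Matrix.trace, Matrix.diag]
    refine (Finset.abs_sum_le_sum_abs _ _).trans ?_
    calc ∑ i, |Cone.bMat X x i i| ≤ ∑ _i : Fin d, b0 := Finset.sum_le_sum fun i _ => hb0.2 x i i
      _ = _ := by simp
  have hdetpos : ∀ t : ℝ, |t| ≤ δ → ∀ x, 0 < (1 + t • Cone.bMat X x).det := fun t ht x => by
    by_cases hx : x ∈ S
    · rw [hdet (t, x)]
      have h1 : |t * (Cone.bMat X x).trace| ≤ δ * ((d : ℝ) * b0) := by
        rw [abs_mul]; exact mul_le_mul ht (htr x) (abs_nonneg _) hδ.le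
      have h2 : |t ^ 2 * c (t, x)| ≤ δ * |c0| := by
        rw [abs_mul, abs_pow, sq]
        refine mul_le_mul ?_ (hc0' t ht x hx) (abs_nonneg _) hδ.le
        calc |t| * |t| ≤ δ * 1 := mul_le_mul ht (ht.trans hδle) (abs_nonneg _) hδ.le
          _ = δ := mul_one _
      have h3 : δ * ((d : ℝ) * b0) + δ * |c0| < 1 := by
        have := mul_nonneg hδ.le (NNReal.coe_nonneg K)
        nlinarith
      have := neg_abs_le (t * (Cone.bMat X x).trace)
      have := neg_abs_le (t ^ 2 * c (t, x))
      linarith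
    · rw [Cone.bMat_zero fun i hi => hx (mem_iUnion.2 ⟨i, hi⟩)]; simp
  -- the pulled back density up to second order
  set P : Pt d → Fin d → ℝ := fun x i => pd i u x
  obtain ⟨M, hM⟩ : ∃ M : ℝ, ∀ t : ℝ, |t| ≤ δ → ∀ x,
      densT u X t x ≤ dens0 u x + t * innerDens u X x + t ^ 2 * M := by
    set κ : ℝ := (Ku : ℝ)
    set w : ℝ := (d : ℝ) * (κ * b0)
    set r : ℝ := (d : ℝ) * ((d : ℝ) * (2 * κ) * b0 * b0)
    set C1 : ℝ := (d : ℝ) * (w ^ 2 + 2 * κ * r + 2 * w * r + r ^ 2)
    set C0 : ℝ := (d : ℝ) * κ ^ 2 + 1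
    set L1 : ℝ := (d : ℝ) * (2 * κ * w)
    refine ⟨C1 * (1 + (d : ℝ) * b0 + |c0|) + L1 * ((d : ℝ) * b0 + |c0|) + C0 * |c0|,
      fun t ht x => ?_⟩
    have hκ : 0 ≤ κ := Ku.2
    have hw0 : 0 ≤ w := by positivity
    have hr0 : 0 ≤ r := by positivity
    by_cases hx : 0 < u x
    swap
    · have hu0 := h.eq_zero hx
      simp only [densT, if_neg hx, h.dens0_eq_zero hu0, innerDens, h.pd_zero hu0, mul_zero,
        zero_mul, Finset.sum_const_zero, sub_zero, zero_add]
      exact mul_nonneg (sq_nonneg _) (by positivity)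
    by_cases hxS : x ∈ S
    swap
    · have hbz := Cone.bMat_zero (X := X) fun i hi => hxS (mem_iUnion.2 ⟨i, hi⟩)
      have hz : ∀ i j, pd j (X i) x = 0 := fun i j => by
        have := congrFun (congrFun hbz i) j
        simpa [Cone.bMat, Cone.bX] using this
      simp only [densT, if_pos hx, qv, hbz, smul_zero, add_zero, inv_one, Matrix.vecMul_one,
        Matrix.det_one, mul_one, innerDens, hz, mul_zero, Finset.sum_const_zero, sub_zero,
        add_comm (∑ i, pd i u x ^ 2)]
      have : dens0 u x = 1 + ∑ i, pd i u x ^ 2 := by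
        simp [dens0, gradSq, indicator, hx, add_comm]
      rw [this]
      exact le_add_of_nonneg_right (mul_nonneg (sq_nonneg _) (by positivity))
    set B := Cone.bMat X x with hBdef
    set q := qv u X t x with hqdef
    have hunit : IsUnit (1 + t • B).det := isUnit_iff_ne_zero.2 (hdetpos t ht x).ne'
    have hqB : q ᵥ* (1 + t • B) = P x := by
      rw [hqdef, qv, Matrix.vecMul_vecMul, Matrix.nonsing_inv_mul _ hunit, Matrix.vecMul_one]
    have hq1 : ∀ j, q j + t * (∑ i, q i * B i j) = P x j := fun j => by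
      have := congrFun hqB j
      simpa [Matrix.vecMul_add, Matrix.vecMul_smul, Matrix.vecMul, dotProduct, Matrix.one_apply,
        mul_add, Finset.sum_add_distrib, Finset.mul_sum, mul_left_comm] using this
    have hqb : ∀ j, |q j| ≤ 2 * κ := by
      have hle : ∀ j, |q j| ≤ κ + |t| * (‖q‖ * ((d : ℝ) * b0)) := fun j => by
        have e : q j = P x j - t * (∑ i, q i * B i j) := by linarith [hq1 j]
        rw [e]
        refine (abs_sub _ _).trans (add_le_add (abs_pd_le_lip hKu j x) ?_)
        rw [abs_mul]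
        refine mul_le_mul_of_nonneg_left ((Finset.abs_sum_le_sum_abs _ _).trans ?_) (abs_nonneg _)
        calc ∑ i, |q i * B i j| ≤ ∑ _i : Fin d, ‖q‖ * b0 := Finset.sum_le_sum fun i _ => by
              rw [abs_mul]
              exact mul_le_mul (norm_le_pi_norm q i) (hb0.2 x i j) (abs_nonneg _) (norm_nonneg _)
          _ = _ := by simp; ring
      have hn : ‖q‖ ≤ κ + |t| * (‖q‖ * ((d : ℝ) * b0)) :=
        (pi_norm_le_iff_of_nonneg (by positivity)).2 hle
      have hs : |t| * ((d : ℝ) * b0) ≤ 1 / 2 := by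
        have h1 := mul_le_mul_of_nonneg_right ht (show (0 : ℝ) ≤ (d : ℝ) * b0 by positivity)
        have h2 := mul_nonneg hδ.le (show (0 : ℝ) ≤ 2 + 2 * K + 2 * |c0| + 2 by positivity)
        nlinarith
      have h2 := mul_le_mul_of_nonneg_left hs (norm_nonneg q)
      intro j
      have := norm_le_pi_norm q j
      rw [Real.norm_eq_abs] at this
      nlinarith
    set W : Fin d → ℝ := fun j => ∑ i, P x i * B i j
    set Rm : Fin d → ℝ := fun j => ∑ i, (∑ l, q l * B l i) * B i j
    have hq2 : ∀ j, q j = P x j - t * W j + t ^ 2 * Rm j := fun j => by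
      have e : ∀ i, P x i * B i j = q i * B i j + t * ((∑ l, q l * B l i) * B i j) := fun i => by
        rw [← hq1 i]; ring
      have : W j = (∑ i, q i * B i j) + t * Rm j := by
        simp only [W, Rm, e, Finset.sum_add_distrib, Finset.mul_sum]
      rw [this]
      linear_combination hq1 j
    have hWb : ∀ j, |W j| ≤ w := fun j => by
      refine (Finset.abs_sum_le_sum_abs _ _).trans ?_
      calc ∑ i, |P x i * B i j| ≤ ∑ _i : Fin d, κ * b0 := Finset.sum_le_sum fun i _ => by
            rw [abs_mul]; exact mul_le_mul (abs_pd_le_lip hKu i x) (hb0.2 x i j) (abs_nonneg _) hκ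
        _ = w := by simp [w]
    have hRb : ∀ j, |Rm j| ≤ r := fun j => by
      refine (Finset.abs_sum_le_sum_abs _ _).trans ?_
      calc ∑ i, |(∑ l, q l * B l i) * B i j| ≤ ∑ _i : Fin d, (d : ℝ) * (2 * κ) * b0 * b0 :=
            Finset.sum_le_sum fun i _ => by
              rw [abs_mul]
              refine mul_le_mul ((Finset.abs_sum_le_sum_abs _ _).trans ?_) (hb0.2 x i j)
                (abs_nonneg _) (by positivity)
              calc ∑ l, |q l * B l i| ≤ ∑ _l : Fin d, 2 * κ * b0 := Finset.sum_le_sum fun l _ => by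
                    rw [abs_mul]
                    exact mul_le_mul (hqb l) (hb0.2 x l i) (abs_nonneg _) (by positivity)
                _ = _ := by simp; ring
        _ = r := by simp [r]
    have hsum : ∑ j, q j ^ 2 + 1 = (∑ j, P x j ^ 2 + 1) - 2 * t * (∑ j, P x j * W j)
        + t ^ 2 * ∑ j, (W j ^ 2 + 2 * P x j * Rm j - 2 * t * W j * Rm j + t ^ 2 * Rm j ^ 2) := by
      simp only [hq2, Finset.mul_sum]
      rw [add_sub_right_comm, add_right_comm _ (1 : ℝ), add_left_inj, ← Finset.sum_sub_distrib,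
        ← Finset.sum_add_distrib]
      exact Finset.sum_congr rfl fun j _ => by ring
    set E1 := ∑ j, (W j ^ 2 + 2 * P x j * Rm j - 2 * t * W j * Rm j + t ^ 2 * Rm j ^ 2)
    have hE1 : |E1| ≤ C1 := by
      refine (Finset.abs_sum_le_sum_abs _ _).trans ?_
      calc ∑ j, |W j ^ 2 + 2 * P x j * Rm j - 2 * t * W j * Rm j + t ^ 2 * Rm j ^ 2|
          ≤ ∑ _j : Fin d, (w ^ 2 + 2 * κ * r + 2 * w * r + r ^ 2) := Finset.sum_le_sum fun j _ => by
            have h1 : |W j ^ 2| ≤ w ^ 2 := by
              rw [abs_pow]; exact pow_le_pow_left₀ (abs_nonneg _) (hWb j) 2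
            have h2 : |2 * P x j * Rm j| ≤ 2 * κ * r := by
              rw [abs_mul, abs_mul, abs_two]
              exact mul_le_mul (mul_le_mul_of_nonneg_left (abs_pd_le_lip hKu j x) zero_le_two) (hRb j)
                (abs_nonneg _) (by positivity)
            have h3 : |2 * t * W j * Rm j| ≤ 2 * w * r := by
              rw [abs_mul, abs_mul, abs_mul, abs_two]
              refine mul_le_mul ?_ (hRb j) (abs_nonneg _) (by positivity)
              calc 2 * |t| * |W j| ≤ 2 * 1 * w := mul_le_mul
                    (mul_le_mul_of_nonneg_left (ht.trans hδle) zero_le_two) (hWb j) (abs_nonneg _)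
                    (by positivity)
                _ = _ := by ring
            have h4 : |t ^ 2 * Rm j ^ 2| ≤ r ^ 2 := by
              rw [abs_mul, abs_pow, abs_pow]
              calc |t| ^ 2 * |Rm j| ^ 2 ≤ 1 * r ^ 2 := mul_le_mul
                    (pow_le_one₀ (abs_nonneg _) (ht.trans hδle))
                    (pow_le_pow_left₀ (abs_nonneg _) (hRb j) 2) (by positivity) zero_le_one
                _ = _ := one_mul _
            obtain ⟨a1, a2⟩ := abs_le.1 h1
            obtain ⟨b1, b2⟩ := abs_le.1 h2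
            obtain ⟨c1, c2⟩ := abs_le.1 h3
            obtain ⟨e1, e2⟩ := abs_le.1 h4
            rw [abs_le]; constructor <;> linarith
        _ = C1 := by simp [C1]; ring
    set Z0 := ∑ j, P x j ^ 2 + 1
    set Z1 := ∑ j, P x j * W j
    have hZ0 : |Z0| ≤ C0 := by
      rw [abs_of_nonneg (by positivity)]
      refine add_le_add ?_ le_rfl
      calc ∑ j, P x j ^ 2 ≤ ∑ _j : Fin d, κ ^ 2 := Finset.sum_le_sum fun j _ => by
            rw [← sq_abs]; exact pow_le_pow_left₀ (abs_nonneg _) (abs_pd_le_lip hKu j x) 2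
        _ = _ := by simp
    have hZ1 : |2 * Z1| ≤ L1 := by
      rw [abs_mul, abs_two]
      calc 2 * |Z1| ≤ 2 * ∑ _j : Fin d, κ * w := mul_le_mul_of_nonneg_left
            ((Finset.abs_sum_le_sum_abs _ _).trans (Finset.sum_le_sum fun j _ => by
              rw [abs_mul]; exact mul_le_mul (abs_pd_le_lip hKu j x) (hWb j) (abs_nonneg _) hκ)) zero_le_two
        _ = L1 := by simp [L1]; ring
    have hid : innerDens u X x = Z0 * B.trace - 2 * Z1 := by
      simp only [innerDens, dens0, gradSq, indicator, mem_ofPred_eq, hx, if_true, Z0, Z1, W, P,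
        Matrix.trace, Matrix.diag, hBdef, Cone.bMat, Cone.bX, Matrix.of_apply, Finset.mul_sum]
      congr 1
      rw [Finset.sum_comm]
      exact Finset.sum_congr rfl fun i _ => Finset.sum_congr rfl fun j _ => by ring
    have hd0 : dens0 u x = Z0 := by simp [dens0, gradSq, indicator, hx, Z0, P]
    have hdx : (1 + t • B).det = 1 + t * B.trace + t ^ 2 * c (t, x) := hdet (t, x)
    simp only [densT, if_pos hx, ← hqdef, hsum, ← hBdef, hdx, hid, hd0]
    have hct : |c (t, x)| ≤ |c0| := hc0' t ht x hxS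
    have hT := htr x
    rw [← hBdef] at hT
    have ht1 : |t| ≤ 1 := ht.trans hδle
    have k1 : |E1 * (1 + t * B.trace + t ^ 2 * c (t, x))| ≤ C1 * (1 + (d : ℝ) * b0 + |c0|) := by
      rw [abs_mul]
      refine mul_le_mul hE1 ?_ (abs_nonneg _) (by positivity)
      refine (abs_add_le _ _).trans (add_le_add ((abs_add_le _ _).trans (add_le_add (le_of_eq abs_one) ?_)) ?_)
      · rw [abs_mul]
        exact (mul_le_mul ht1 hT (abs_nonneg _) zero_le_one).trans_eq (one_mul _)
      · rw [abs_mul, abs_pow]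
        exact (mul_le_mul (pow_le_one₀ (abs_nonneg _) ht1) hct (abs_nonneg _) zero_le_one).trans_eq
          (one_mul _)
    have k2 : |2 * Z1 * (B.trace + t * c (t, x))| ≤ L1 * ((d : ℝ) * b0 + |c0|) := by
      rw [abs_mul]
      refine mul_le_mul hZ1 ((abs_add_le _ _).trans (add_le_add hT ?_)) (abs_nonneg _) (by positivity)
      rw [abs_mul]
      exact (mul_le_mul ht1 hct (abs_nonneg _) zero_le_one).trans_eq (one_mul _)
    have k3 : |Z0 * c (t, x)| ≤ C0 * |c0| := by
      rw [abs_mul]; exact mul_le_mul hZ0 hct (abs_nonneg _) (by positivity)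
    have key : t ^ 2 * (E1 * (1 + t * B.trace + t ^ 2 * c (t, x))
        - 2 * Z1 * (B.trace + t * c (t, x)) + Z0 * c (t, x)) ≤
        t ^ 2 * (C1 * (1 + (d : ℝ) * b0 + |c0|) + L1 * ((d : ℝ) * b0 + |c0|) + C0 * |c0|) := by
      refine mul_le_mul_of_nonneg_left ?_ (sq_nonneg _)
      linarith [(abs_le.1 k1).2, (abs_le.1 k2).1, (abs_le.1 k3).2]
    refine le_of_eq_of_le ?_ (add_le_add_right key _)
    ring
  have hball : volume (Metric.ball (0 : Pt d) R) < ⊤ := measure_ball_lt_top
  have hi0 := integrableOn_bounded (measurable_dens0 h.continuous)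
    (fun x => by rw [abs_of_nonneg (dens0_nonneg x)]; exact dens0_le hKu x) hball
  have hz : ∀ x, x ∉ Metric.ball (0 : Pt d) R → innerDens u X x = 0 := fun x hx => by
    have : ∀ i j, pd j (X i) x = 0 := fun i j => by
      rw [pd_congr (g := fun _ => (0 : ℝ)) (notMem_tsupport_iff_eventuallyEq.1
        fun hh => hx (hR (mem_iUnion.2 ⟨i, hh⟩))), pd_const]
    simp [innerDens, this]
  have hi1 : IntegrableOn (innerDens u X) (Metric.ball 0 R) := by
    refine integrableOn_bounded (M := ((d : ℝ) * (Ku : ℝ) ^ 2 + 1) * (∑ _i : Fin d, b0) +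
      2 * ∑ _i : Fin d, ∑ _j : Fin d, (Ku : ℝ) * Ku * b0) ?_ (fun x => ?_) hball
    · exact ((measurable_dens0 h.continuous).mul (Finset.measurable_sum _ fun i _ => measurable_pd' i)).sub
        ((Finset.measurable_sum _ fun i _ => Finset.measurable_sum _ fun j _ =>
          ((measurable_pd' i).mul (measurable_pd' j)).mul (measurable_pd' j)).const_mul 2)
    · refine (abs_sub _ _).trans (add_le_add ?_ ?_)
      · rw [abs_mul, abs_of_nonneg (dens0_nonneg x)]
        exact mul_le_mul (dens0_le hKu x) ((Finset.abs_sum_le_sum_abs _ _).trans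
          (Finset.sum_le_sum fun i _ => hb0.2 x i i)) (abs_nonneg _) (by positivity)
      · rw [abs_mul, abs_two]
        refine mul_le_mul_of_nonneg_left ((Finset.abs_sum_le_sum_abs _ _).trans
          (Finset.sum_le_sum fun i _ => (Finset.abs_sum_le_sum_abs _ _).trans
            (Finset.sum_le_sum fun j _ => ?_))) zero_le_two
        rw [abs_mul, abs_mul]
        exact mul_le_mul (mul_le_mul (abs_pd_le_lip hKu i x) (abs_pd_le_lip hKu j x) (abs_nonneg _) Ku.2)
          (hb0.2 x i j) (abs_nonneg _) (by positivity)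
  have hiM : IntegrableOn (fun _ : Pt d => M) (Metric.ball (0 : Pt d) R) := integrableOn_const hball.ne
  have key : ∀ t : ℝ, |t| ≤ δ → 0 ≤ t * (∫ x in Metric.ball 0 R, innerDens u X x) +
      t ^ 2 * ∫ _x in Metric.ball (0 : Pt d) R, M := fun t ht => by
    have htK : |t| * K < 1 := by
      have h1 := mul_le_mul_of_nonneg_right ht (NNReal.coe_nonneg K)
      have h2 := mul_nonneg hδ.le (show (0 : ℝ) ≤ 2 * ((d : ℝ) * b0 + 1) + K + 2 * |c0| by positivity)
      nlinarith
    have hmain := inner_competitor hB h hX hc (fun i => (subset_iUnion _ i).trans hR) hK htK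
      (hdetpos t ht)
    have hint : IntegrableOn (fun x => densT u X t x) (Metric.ball 0 R) := by
      refine ((hi0.add (hi1.const_mul t)).add (hiM.const_mul (t ^ 2))).mono' ?_ ?_
      · refine (Measurable.ite (measurableSet_lt measurable_const h.continuous.measurable) ?_
          measurable_const).aestronglyMeasurable
        have hMt : Continuous fun x : Pt d => 1 + t • Cone.bMat X x :=
          continuous_const.add (hbc.const_smul t)
        refine ((Finset.measurable_sum _ fun j _ => ?_).add_const 1).mul hMt.matrix_det.measurable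
        have : ∀ x, qv u X t x j = ∑ i, pd i u x *
            ((1 + t • Cone.bMat X x).det⁻¹ * (1 + t • Cone.bMat X x).adjugate i j) := fun x => by
          simp [qv, Matrix.vecMul, dotProduct, Matrix.inv_def, Ring.inverse_eq_inv']
        refine Measurable.pow_const ?_ 2
        simp only [this]
        exact Finset.measurable_sum _ fun i _ => (measurable_pd' i).mul
          (hMt.matrix_det.measurable.inv.mul (hMt.matrix_adjugate.matrix_elem i j).measurable)
      · refine Eventually.of_forall fun x => ?_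
        rw [Real.norm_eq_abs, abs_of_nonneg]
        · simpa using hM t ht x
        · unfold densT; split_ifs
          · exact mul_nonneg (by positivity) (hdetpos t ht x).le
          · exact le_rfl
    have hle : energy u 0 R ≤ ∫ x in Metric.ball 0 R,
        (dens0 u x + t * innerDens u X x + t ^ 2 * M) :=
      hmain.trans (setIntegral_mono hint ((hi0.add (hi1.const_mul t)).add (hiM.const_mul _))
        fun x => hM t ht x)
    rw [energy_eq, integral_three t (t ^ 2) hi0 hi1 hiM] at hle
    linarith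
  rw [← setIntegral_eq_integral_of_forall_compl_eq_zero hz]
  exact slope_zero hδ key

end Vale.Agent.P098.Reg
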