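import Vale.Agent.P098.Reg.Blow.Vary
import Vale.Agent.P098.Reg.Scale
import Vale.Agent.P098.Strip

/-!
Weiss monotonicity with a smooth radial weight, without surface integrals, and homogeneity of
blow-ups.
-/

noncomputable section

namespace Vale.Agent.P098.Reg

open MeasureTheory Set Filter Topology Metric
open scoped ContDiff NNReal

variable {d : ℕ} {u : Pt d → ℝ}

/-- The weight `1 - step (‖x‖²/r²)`. -/
def wF (r : ℝ) (x : Pt d) : ℝ := 1 - step (‖x‖ ^ 2 / r ^ 2)

/-- Minus the radial factor of the gradient of the weight. -/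
def wK (r : ℝ) (x : Pt d) : ℝ := 2 * deriv step (‖x‖ ^ 2 / r ^ 2) / r ^ 2

/-- The radial derivative `x·∇u`. -/
def eul (u : Pt d → ℝ) (x : Pt d) : ℝ := ∑ i, x i * pd i u x

/-- The energy part of the Weiss functional. -/
def weissI (u : Pt d → ℝ) (r : ℝ) : ℝ := (r ^ d)⁻¹ * ∫ x, dens0 u x * wF r x

/-- The mass part of the Weiss functional. -/
def weissH (u : Pt d → ℝ) (r : ℝ) : ℝ :=
  ∫ y : Pt d, (u (r • y) / r) ^ 2 * (2 * deriv step (‖y‖ ^ 2))

/-- The Weiss functional. -/
def weiss (u : Pt d → ℝ) (r : ℝ) : ℝ := weissI u r - weissH u r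

theorem wK_nonneg (r : ℝ) (x : Pt d) : 0 ≤ wK r x := by
  have := deriv_step_nonneg (‖x‖ ^ 2 / r ^ 2)
  unfold wK; positivity

theorem continuous_deriv_step : Continuous (deriv step) :=
  (step_contDiff (n := 1)).continuous_deriv le_rfl

theorem deriv_step_out {s : ℝ} (h : 1 < s) : deriv step s = 0 := deriv_step_zero_of_one_lt h

theorem deriv_step_le : ∃ D : ℝ, 0 ≤ D ∧ ∀ s, |deriv step s| ≤ D := by
  obtain ⟨D, hD⟩ := (isCompact_Icc (a := (0 : ℝ)) (b := 2)).exists_bound_of_continuousOn
    continuous_deriv_step.continuousOn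
  refine ⟨max D 0, le_max_right _ _, fun s => ?_⟩
  rcases lt_or_ge s (1 / 2) with h | h
  · have : step =ᶠ[𝓝 s] fun _ => (0 : ℝ) :=
      eventually_of_mem (Iio_mem_nhds h) fun t ht => step_zero (le_of_lt ht)
    simp [this.deriv_eq]
  · rcases lt_or_ge 1 s with h' | h'
    · simp [deriv_step_out h']
    · exact le_trans (hD s ⟨by linarith, by linarith⟩) (le_max_left _ _)

theorem one_lt_sq_div {r : ℝ} (hr : 0 < r) {x : Pt d} (hx : r < ‖x‖) : 1 < ‖x‖ ^ 2 / r ^ 2 := by
  rw [one_lt_div (by positivity)]; exact pow_lt_pow_left₀ hx hr.le two_ne_zero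

theorem wF_out {r : ℝ} (hr : 0 < r) {x : Pt d} (hx : r < ‖x‖) : wF r x = 0 := by
  rw [wF, step_one (one_lt_sq_div hr hx).le, sub_self]

theorem wK_out {r : ℝ} (hr : 0 < r) {x : Pt d} (hx : r < ‖x‖) : wK r x = 0 := by
  rw [wK, deriv_step_out (one_lt_sq_div hr hx)]; simp

theorem wF_mem (r : ℝ) (x : Pt d) : |wF r x| ≤ 1 := by
  have h := step_mem (‖x‖ ^ 2 / r ^ 2)
  rw [abs_le, wF]
  constructor <;> linarith [h.1, h.2]

theorem contDiff_wF {n : ℕ∞} (r : ℝ) : ContDiff ℝ n (wF r (d := d)) := by
  unfold wF
  exact contDiff_const.sub (step_contDiff.comp ((contDiff_norm_sq ℝ).div_const _))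

theorem continuous_wK (r : ℝ) : Continuous (wK r (d := d)) := by
  unfold wK
  exact ((continuous_deriv_step.comp ((continuous_norm.pow 2).div_const _)).const_mul 2).div_const _

theorem hasCompactSupport_wF {r : ℝ} (hr : 0 < r) : HasCompactSupport (wF r (d := d)) :=
  HasCompactSupport.intro (isCompact_closedBall (0 : Pt d) r) fun x hx => wF_out hr (by
    simpa using hx)

theorem pd_wF (r : ℝ) (i : Fin d) (x : Pt d) : pd i (wF r) x = -(wK r x * x i) := by
  have h : HasFDerivAt (fun y : Pt d => ‖y‖ ^ 2 / r ^ 2)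
      ((r ^ 2)⁻¹ • ((2 : ℕ) • innerSL ℝ x)) x := by
    simpa [div_eq_inv_mul] using ((hasStrictFDerivAt_norm_sq x).hasFDerivAt).const_mul (r ^ 2)⁻¹
  have hs : DifferentiableAt ℝ step (‖x‖ ^ 2 / r ^ 2) :=
    (step_contDiff (n := 1)).differentiable one_ne_zero _
  have h2 := ((hs.hasDerivAt.comp_hasFDerivAt x h).const_sub 1).fderiv
  rw [pd, show wF r = fun y : Pt d => 1 - (step ∘ fun z => ‖z‖ ^ 2 / r ^ 2) y from rfl, h2]
  simp [wK, EuclideanSpace.inner_single_right]
  ring

theorem sum_sq_coord (x : Pt d) : ∑ i, x i * x i = ‖x‖ ^ 2 := by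
  rw [EuclideanSpace.real_norm_sq_eq]; exact Finset.sum_congr rfl fun i _ => (sq _).symm

theorem abs_eul_le {K : ℝ≥0} (hK : LipschitzWith K u) (x : Pt d) : |eul u x| ≤ K * (d * ‖x‖) := by
  refine (Finset.abs_sum_le_sum_abs _ _).trans ?_
  calc ∑ i, |x i * pd i u x| ≤ ∑ _i : Fin d, ‖x‖ * K := Finset.sum_le_sum fun i _ => by
        rw [abs_mul]
        exact mul_le_mul (by simpa using PiLp.norm_apply_le x i) (abs_pd_le_lip hK i x) (abs_nonneg _)
          (norm_nonneg _)
    _ = _ := by simp; ring

theorem measurable_eul : Measurable (eul u) :=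
  Finset.measurable_sum _ fun i _ =>
    (PiLp.continuous_apply (p := 2) (β := fun _ : Fin d => ℝ) i).measurable.mul (measurable_pd' i)

theorem integrable_bounded_support {f : Pt d → ℝ} (hm : Measurable f) {R M : ℝ}
    (hb : ∀ x, ‖x‖ ≤ R → |f x| ≤ M) (h0 : ∀ x, R < ‖x‖ → f x = 0) : Integrable f := by
  refine ((integrableOn_const (measure_closedBall_lt_top (x := (0 : Pt d)) (r := R)).ne (C := M)
    ).integrable_indicator measurableSet_closedBall).mono' hm.aestronglyMeasurable
    (Eventually.of_forall fun x => ?_)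
  by_cases hx : ‖x‖ ≤ R
  · rw [indicator_of_mem (by simpa using hx), Real.norm_eq_abs]; exact hb x hx
  · rw [indicator_of_notMem (by simpa using hx), h0 x (not_le.1 hx), norm_zero]

theorem integrable_mul_wK {f : Pt d → ℝ} (hm : Measurable f) {r M : ℝ} (hr : 0 < r)
    (hb : ∀ x, ‖x‖ ≤ r → |f x| ≤ M) : Integrable fun x => f x * wK r x := by
  obtain ⟨D, -, hD⟩ := deriv_step_le
  refine integrable_bounded_support (R := r) (M := M * (2 * D / r ^ 2)) (hm.mul (continuous_wK r).measurable)
    (fun x hx => ?_) fun x hx => by simp [wK_out hr hx]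
  rw [abs_mul, abs_of_nonneg (wK_nonneg r x)]
  refine mul_le_mul (hb x hx) ?_ (wK_nonneg r x) ((abs_nonneg _).trans (hb x hx))
  unfold wK
  gcongr
  exact (le_abs_self _).trans (hD _)

section Identities

variable {r : ℝ} (hB : Basics d) (h : LMin u) (hr : 0 < r)
include hB h hr

theorem outer_radial : ∫ x, wF r x * gradSq u x = ∫ x, u x * eul u x * wK r x := by
  obtain ⟨K, hK⟩ := h.lip
  obtain ⟨Mu, hMu⟩ := (isCompact_closedBall (0 : Pt d) r).exists_bound_of_continuousOn
    h.continuous.continuousOn
  have h1 := outer_identity hB h (contDiff_wF (n := 1) r) (hasCompactSupport_wF hr)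
  have hpt : ∀ x, ∑ i, (wF r x * pd i u x ^ 2 + u x * pd i u x * pd i (wF r) x)
      = wF r x * gradSq u x - u x * eul u x * wK r x := fun x => by
    simp only [gradSq, eul, pd_wF, Finset.mul_sum, Finset.sum_mul, ← Finset.sum_sub_distrib]
    exact Finset.sum_congr rfl fun i _ => by ring
  simp only [hpt] at h1
  have hi1 : Integrable fun x => wF r x * gradSq u x := by
    refine integrable_bounded_support (R := r) (M := d * (K : ℝ) ^ 2 + 1)
      ((contDiff_wF (n := 0) r).continuous.measurable.mul
        (Finset.measurable_sum _ fun i _ => (measurable_pd' i).pow_const 2))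
      (fun x _ => ?_) fun x hx => by simp [wF_out hr hx]
    have hg : 0 ≤ gradSq u x := Finset.sum_nonneg fun _ _ => sq_nonneg _
    rw [abs_mul, abs_of_nonneg hg]
    refine (mul_le_of_le_one_left hg (wF_mem r x)).trans (le_trans ?_ (dens0_le hK x))
    exact le_add_of_nonneg_right (indicator_nonneg (fun _ _ => zero_le_one) x)
  have hi2 : Integrable fun x => u x * eul u x * wK r x :=
    integrable_mul_wK (M := Mu * (K * (d * r))) (h.continuous.measurable.mul measurable_eul) hr
      fun x hx => by
        rw [Pi.mul_apply, abs_mul]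
        refine mul_le_mul (by simpa using hMu x (by simpa using hx)) ((abs_eul_le hK x).trans ?_)
          (abs_nonneg _) ((norm_nonneg _).trans (hMu x (by simpa using hx)))
        gcongr
  rw [integral_sub hi1 hi2] at h1
  linarith

theorem inner_radial :
    ∫ x, (dens0 u x * ‖x‖ ^ 2 * wK r x - d * (dens0 u x * wF r x)) =
      2 * (∫ x, eul u x ^ 2 * wK r x) - 2 * ∫ x, wF r x * gradSq u x := by
  obtain ⟨K, hK⟩ := h.lip
  let X : Fin d → Pt d → ℝ := fun i x => x i * wF r x
  have hX : ∀ i, ContDiff ℝ 2 (X i) := fun i => (Cone.contDiff_coord i).mul (contDiff_wF r)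
  have hXc : ∀ i, HasCompactSupport (X i) := fun i => (hasCompactSupport_wF hr).mul_left
  have h1 := inner_identity hB h hX hXc
  have hpd : ∀ x i j, pd j (X i) x = (if i = j then wF r x else 0) - x i * x j * wK r x := by
    intro x i j
    rw [pd_mul ((Cone.contDiff_coord (n := 1) i).differentiable one_ne_zero x)
      ((contDiff_wF (n := 1) r).differentiable one_ne_zero x), pd_wF, pd_apply]
    split_ifs <;> ring
  have hpt : ∀ x, innerDens u X x = (2 * (eul u x ^ 2 * wK r x) - 2 * (wF r x * gradSq u x))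
      - (dens0 u x * ‖x‖ ^ 2 * wK r x - d * (dens0 u x * wF r x)) := fun x => by
    have e1 : ∑ i, pd i (X i) x = d * wF r x - ‖x‖ ^ 2 * wK r x := by
      simp [hpd, Finset.sum_sub_distrib, ← sum_sq_coord, Finset.sum_mul]
    have e2 : ∑ i, ∑ j, pd i u x * pd j u x * pd j (X i) x
        = wF r x * gradSq u x - eul u x ^ 2 * wK r x := by
      simp only [hpd, mul_sub, mul_ite, mul_zero, Finset.sum_sub_distrib, Finset.sum_ite_eq,
        Finset.mem_univ, if_true, gradSq, eul, sq, Finset.sum_mul_sum, Finset.mul_sum, Finset.sum_mul]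
      congr 1
      · exact Finset.sum_congr rfl fun i _ => by ring
      · exact Finset.sum_congr rfl fun i _ => Finset.sum_congr rfl fun j _ => by ring
    simp only [innerDens, e1, e2]
    ring
  simp only [hpt] at h1
  have hie : Integrable fun x => eul u x ^ 2 * wK r x :=
    integrable_mul_wK (M := (K * (d * r)) ^ 2) (measurable_eul.pow_const 2) hr fun x hx => by
      rw [abs_pow]
      exact pow_le_pow_left₀ (abs_nonneg _) ((abs_eul_le hK x).trans (by gcongr)) 2
  have hik : Integrable fun x => dens0 u x * ‖x‖ ^ 2 * wK r x :=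
    integrable_mul_wK (M := (d * (K : ℝ) ^ 2 + 1) * r ^ 2)
      ((measurable_dens0 h.continuous).mul (measurable_norm.pow_const 2)) hr fun x hx => by
      rw [Pi.mul_apply, abs_mul, abs_of_nonneg (dens0_nonneg x), abs_of_nonneg (sq_nonneg ‖x‖)]
      exact mul_le_mul (dens0_le hK x) (pow_le_pow_left₀ (norm_nonneg _) hx 2) (sq_nonneg _)
        (by positivity)
  have hid : Integrable fun x => dens0 u x * wF r x :=
    integrable_bounded_support (R := r) (M := d * (K : ℝ) ^ 2 + 1)
      ((measurable_dens0 h.continuous).mul (contDiff_wF (n := 0) r).continuous.measurable)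
      (fun x _ => by
        rw [abs_mul, abs_of_nonneg (dens0_nonneg x)]
        exact (mul_le_of_le_one_right (dens0_nonneg x) (wF_mem r x)).trans (dens0_le hK x))
      fun x hx => by simp [wF_out hr hx]
  have hig : Integrable fun x => wF r x * gradSq u x := by
    refine integrable_bounded_support (R := r) (M := d * (K : ℝ) ^ 2 + 1)
      ((contDiff_wF (n := 0) r).continuous.measurable.mul
        (Finset.measurable_sum _ fun i _ => (measurable_pd' i).pow_const 2))
      (fun x _ => ?_) fun x hx => by simp [wF_out hr hx]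
    have hg : 0 ≤ gradSq u x := Finset.sum_nonneg fun _ _ => sq_nonneg _
    rw [abs_mul, abs_of_nonneg hg]
    exact (mul_le_of_le_one_left hg (wF_mem r x)).trans
      ((le_add_of_nonneg_right (indicator_nonneg (fun _ _ => zero_le_one) x)).trans (dens0_le hK x))
  rw [integral_sub (f := fun x => 2 * (eul u x ^ 2 * wK r x) - 2 * (wF r x * gradSq u x))
      (g := fun x => dens0 u x * ‖x‖ ^ 2 * wK r x - d * (dens0 u x * wF r x))
      ((hie.const_mul 2).sub (hig.const_mul 2)) (hik.sub (hid.const_mul _)),
    integral_sub (hie.const_mul 2) (hig.const_mul 2), integral_const_mul, integral_const_mul] at h1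
  linarith

end Identities

theorem hasDerivAt_div_sq {c r : ℝ} (hr : r ≠ 0) :
    HasDerivAt (fun s : ℝ => c / s ^ 2) (-(2 * (c / r ^ 2) / r)) r := by
  have := (hasDerivAt_const r c).div (hasDerivAt_pow 2 r) (pow_ne_zero 2 hr)
  refine this.congr_deriv ?_
  field_simp
  ring

theorem hasDerivAt_weissI (hB : Basics d) (h : LMin u) {r : ℝ} (hr : 0 < r) :
    HasDerivAt (weissI u)
      ((r ^ d)⁻¹ / r * (2 * (∫ x, eul u x ^ 2 * wK r x) - 2 * ∫ x, u x * eul u x * wK r x)) r := by
  obtain ⟨K, hK⟩ := h.lip
  obtain ⟨D, hD0, hD⟩ := deriv_step_le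
  set M := (d : ℝ) * (K : ℝ) ^ 2 + 1
  have hMem : Ioo (r / 2) (2 * r) ∈ 𝓝 r := Ioo_mem_nhds (by linarith) (by linarith)
  have hF : ∀ s x, s ∈ Ioo (r / 2) (2 * r) → HasDerivAt (fun t => dens0 u x * wF t x)
      (dens0 u x * ‖x‖ ^ 2 * wK s x / s) s := fun s x hs => by
    have hs0 : s ≠ 0 := by linarith [hs.1]
    have hst : DifferentiableAt ℝ step (‖x‖ ^ 2 / s ^ 2) :=
      (step_contDiff (n := 1)).differentiable one_ne_zero _
    refine (((hst.hasDerivAt.comp s (hasDerivAt_div_sq (c := ‖x‖ ^ 2) hs0)).const_sub 1).const_mul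
      (dens0 u x)).congr_deriv ?_
    unfold wK
    ring
  have key := hasDerivAt_integral_of_dominated_loc_of_deriv_le
    (F := fun s x => dens0 u x * wF s x) (F' := fun s x => dens0 u x * ‖x‖ ^ 2 * wK s x / s)
    (bound := (closedBall (0 : Pt d) (2 * r)).indicator fun _ =>
      M * (2 * r) ^ 2 * (2 * D / (r / 2) ^ 2) / (r / 2))
    hMem
    (Eventually.of_forall fun s =>
      ((measurable_dens0 h.continuous).mul
        (contDiff_wF (n := 0) s).continuous.measurable).aestronglyMeasurable)
    (integrable_bounded_support (R := r) (M := M)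
      ((measurable_dens0 h.continuous).mul (contDiff_wF (n := 0) r).continuous.measurable)
      (fun x _ => by
        rw [abs_mul, abs_of_nonneg (dens0_nonneg x)]
        exact (mul_le_of_le_one_right (dens0_nonneg x) (wF_mem r x)).trans (dens0_le hK x))
      fun x hx => by simp [wF_out hr hx])
    ((((measurable_dens0 h.continuous).mul (measurable_norm.pow_const 2)).mul
      (continuous_wK r).measurable).div_const r).aestronglyMeasurable
    (Eventually.of_forall fun x s hs => ?_)
    ((integrableOn_const measure_closedBall_lt_top.ne).integrable_indicator measurableSet_closedBall)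
    (Eventually.of_forall fun x s hs => hF s x hs)
  · have hd : HasDerivAt (fun s : ℝ => (s ^ d)⁻¹) (-((d : ℝ) * (r ^ d)⁻¹ / r)) r := by
      refine ((hasDerivAt_pow d r).inv (pow_ne_zero d hr.ne')).congr_deriv ?_
      rcases Nat.eq_zero_or_pos d with hd0 | hd0
      · subst hd0; simp
      · obtain ⟨m, rfl⟩ : ∃ m, d = m + 1 := ⟨d - 1, by omega⟩
        simp only [Nat.add_sub_cancel, Nat.cast_add, Nat.cast_one]
        field_simp
        ring
    refine (hd.mul key.2).congr_deriv ?_
    rw [integral_div, ← outer_radial hB h hr, ← inner_radial hB h hr, integral_sub, integral_const_mul]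
    · ring
    · exact integrable_mul_wK (M := M * r ^ 2)
        ((measurable_dens0 h.continuous).mul (measurable_norm.pow_const 2)) hr fun x hx => by
        rw [Pi.mul_apply, abs_mul, abs_of_nonneg (dens0_nonneg x), abs_of_nonneg (sq_nonneg ‖x‖)]
        exact mul_le_mul (dens0_le hK x) (pow_le_pow_left₀ (norm_nonneg _) hx 2) (sq_nonneg _)
          (by positivity)
    · exact (integrable_bounded_support (R := r) (M := M)
        ((measurable_dens0 h.continuous).mul (contDiff_wF (n := 0) r).continuous.measurable)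
        (fun x _ => by
          rw [Pi.mul_apply, abs_mul, abs_of_nonneg (dens0_nonneg x)]
          exact (mul_le_of_le_one_right (dens0_nonneg x) (wF_mem r x)).trans (dens0_le hK x))
        fun x hx => by simp [wF_out hr hx]).const_mul _
  · have hs0 : 0 < s := by linarith [hs.1]
    rw [Real.norm_eq_abs]
    by_cases hx : ‖x‖ ≤ 2 * r
    · rw [indicator_of_mem (by simpa using hx), abs_div, abs_mul, abs_mul,
        abs_of_nonneg (dens0_nonneg x), abs_of_nonneg (sq_nonneg ‖x‖),
        abs_of_nonneg (wK_nonneg s x), abs_of_pos hs0]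
      have h1 : wK s x ≤ 2 * D / (r / 2) ^ 2 := by
        unfold wK
        gcongr
        · exact (le_abs_self _).trans (hD _)
        · exact hs.1.le
      refine div_le_div₀ (by positivity) ?_ (half_pos hr) hs.1.le
      exact mul_le_mul (mul_le_mul (dens0_le hK x) (pow_le_pow_left₀ (norm_nonneg _) hx 2)
        (sq_nonneg _) (by positivity)) h1 (wK_nonneg s x) (by positivity)
    · rw [indicator_of_notMem (by simpa using hx), wK_out hs0 (by linarith [hs.2, not_le.1 hx])]
      simp

theorem hasDerivAt_weissH (hB : Basics d) (h : LMin u) (h0 : u 0 = 0) {r : ℝ} (hr : 0 < r) :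
    HasDerivAt (weissH u)
      ((r ^ d)⁻¹ / r * (2 * ∫ x, u x * (eul u x - u x) * wK r x)) r := by
  obtain ⟨K, hK⟩ := h.lip
  obtain ⟨D, hD0, hD⟩ := deriv_step_le
  have hKy : ∀ (s : ℝ) (y : Pt d), 0 ≤ s → |u (s • y)| ≤ K * (s * ‖y‖) := fun s y hs => by
    have := hK.dist_le_mul (s • y) 0
    rwa [h0, Real.dist_eq, sub_zero, dist_zero_right, norm_smul, Real.norm_eq_abs,
      abs_of_nonneg hs] at this
  have hMem : Ioo (r / 2) (2 * r) ∈ 𝓝 r := Ioo_mem_nhds (by linarith) (by linarith)
  set k : Pt d → ℝ := fun y => 2 * deriv step (‖y‖ ^ 2)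
  have hk : Continuous k := (continuous_deriv_step.comp (continuous_norm.pow 2)).const_mul 2
  have hkout : ∀ y : Pt d, 1 < ‖y‖ → k y = 0 := fun y hy => by
    simp [k, deriv_step_out (one_lt_pow₀ hy two_ne_zero)]
  have hkb : ∀ y, |k y| ≤ 2 * D := fun y => by
    simp only [k, abs_mul, abs_two]; linarith [hD (‖y‖ ^ 2)]
  have hder : ∀ y : Pt d, ∀ s, 0 < s → HasDerivAt (fun t => (u (t • y) / t) ^ 2 * k y)
      (2 * (u (s • y) / s) * ((eul u (s • y) - u (s • y)) / s ^ 2) * k y) s := fun y s hs => by
    by_cases hu : 0 < u (s • y)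
    · have h1 : HasDerivAt (fun t : ℝ => t • y) y s := by
        simpa using (hasDerivAt_id s).smul_const y
      have h2 : HasDerivAt (fun t => u (t • y)) (fderiv ℝ u (s • y) y) s :=
        (hB.diffAt h hu).hasFDerivAt.comp_hasDerivAt (f := fun t : ℝ => t • y) s h1
      have e : fderiv ℝ u (s • y) y * s = eul u (s • y) := by
        rw [fderiv_eq_sum_pd, eul, Finset.sum_mul]
        exact Finset.sum_congr rfl fun i _ => by simp; ring
      refine (((h2.div (hasDerivAt_id' s) hs.ne').pow 2).mul_const (k y)).congr_deriv ?_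
      rw [← e]
      simp
    · have hu0 := h.eq_zero hu
      rw [hu0]
      simp only [zero_div, mul_zero, zero_mul]
      suffices h' : HasDerivAt (fun t => (u (t • y) / t) ^ 2) 0 s by
        simpa using h'.mul_const (k y)
      rw [hasDerivAt_iff_isLittleO]
      simp only [hu0, zero_div, ne_eq, OfNat.ofNat_ne_zero, not_false_eq_true, zero_pow, sub_zero,
        smul_zero]
      have hb : (fun t => u (t • y) / t) =O[𝓝 s] fun t => t - s := by
        refine Asymptotics.IsBigO.of_bound (K * ‖y‖ / (s / 2)) ?_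
        filter_upwards [Ioi_mem_nhds (show s / 2 < s by linarith)] with t ht
        have ht' : s / 2 < t := ht
        have ht0 : 0 < t := by linarith
        have h1 := hK.dist_le_mul (t • y) (s • y)
        rw [hu0, Real.dist_eq, sub_zero, dist_eq_norm, ← sub_smul, norm_smul] at h1
        rw [Real.norm_eq_abs, abs_div, abs_of_pos ht0, div_le_iff₀ ht0]
        refine h1.trans ?_
        rw [show K * ‖y‖ / (s / 2) * ‖t - s‖ * t = K * (‖t - s‖ * ‖y‖) * (t / (s / 2)) by ring]
        exact le_mul_of_one_le_right (by positivity) ((one_le_div (by linarith)).2 ht'.le)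
      have h3 : (fun t => (u (t • y) / t) ^ 2) =O[𝓝 s] fun t => (t - s) ^ 2 := hb.pow 2
      refine h3.trans_isLittleO ?_
      simpa using Asymptotics.isLittleO_pow_sub_sub (s : ℝ) (show 1 < 2 by norm_num)
  have key := hasDerivAt_integral_of_dominated_loc_of_deriv_le
    (F := fun s (y : Pt d) => (u (s • y) / s) ^ 2 * k y)
    (F' := fun s (y : Pt d) => 2 * (u (s • y) / s) * ((eul u (s • y) - u (s • y)) / s ^ 2) * k y)
    (bound := (closedBall (0 : Pt d) 1).indicator fun _ =>
      2 * K * ((K * (d + 1)) / (r / 2)) * (2 * D))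
    hMem
    (Eventually.of_forall fun s =>
      ((((h.continuous.comp (continuous_const_smul s)).div_const s).pow 2).mul hk).measurable.aestronglyMeasurable)
    (integrable_bounded_support (R := 1) (M := (K : ℝ) ^ 2 * (2 * D))
      ((((h.continuous.comp (continuous_const_smul r)).div_const r).pow 2).mul hk).measurable
      (fun y hy => ?_) fun y hy => by simp [hkout y hy])
    ((((h.continuous.measurable.comp (measurable_const_smul r)).div_const r).const_mul 2).mul
      (((measurable_eul.comp (measurable_const_smul r)).sub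
        (h.continuous.measurable.comp (measurable_const_smul r))).div_const _) |>.mul
          hk.measurable).aestronglyMeasurable
    (Eventually.of_forall fun y s hs => ?_)
    ((integrableOn_const measure_closedBall_lt_top.ne).integrable_indicator measurableSet_closedBall)
    (Eventually.of_forall fun y s hs => hder y s (by linarith [hs.1]))
  · refine key.2.congr_deriv ?_
    have e : ∀ y : Pt d,
        2 * (u (r • y) / r) * ((eul u (r • y) - u (r • y)) / r ^ 2) * k y =
          (fun x => 2 / r * (u x * (eul u x - u x) * wK r x)) (r • y) := fun y => by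
      simp only [wK, k, norm_smul, Real.norm_eq_abs, abs_of_pos hr, mul_pow,
        mul_div_cancel_left₀ _ (pow_ne_zero 2 hr.ne')]
      ring
    simp only [e]
    rw [Measure.integral_comp_smul_of_nonneg volume
      (fun x => 2 / r * (u x * (eul u x - u x) * wK r x)) r (hR := hr.le), integral_const_mul,
      finrank_euclideanSpace_fin, smul_eq_mul]
    ring
  · rw [abs_mul, abs_pow]
    refine mul_le_mul (pow_le_pow_left₀ (abs_nonneg _) ?_ 2) (hkb y) (abs_nonneg _) (by positivity)
    rw [abs_div, abs_of_pos hr, div_le_iff₀ hr]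
    refine (hKy r y hr.le).trans ?_
    gcongr
    exact mul_le_of_le_one_right hr.le hy
  · have hs0 : 0 < s := by linarith [hs.1]
    rw [Real.norm_eq_abs]
    by_cases hy : ‖y‖ ≤ 1
    · rw [indicator_of_mem (by simpa using hy)]
      have a1 : |u (s • y) / s| ≤ K := by
        rw [abs_div, abs_of_pos hs0, div_le_iff₀ hs0]
        refine (hKy s y hs0.le).trans ?_
        gcongr
        exact mul_le_of_le_one_right hs0.le hy
      have a2 : |(eul u (s • y) - u (s • y)) / s ^ 2| ≤ K * (d + 1) / (r / 2) := by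
        rw [abs_div, abs_of_pos (pow_pos hs0 2), div_le_div_iff₀ (pow_pos hs0 2) (half_pos hr)]
        have b1 := abs_eul_le hK (s • y)
        rw [norm_smul, Real.norm_eq_abs, abs_of_pos hs0] at b1
        have b2 : |eul u (s • y) - u (s • y)| ≤ K * (d + 1) * s := by
          refine (abs_sub _ _).trans ((add_le_add b1 (hKy s y hs0.le)).trans ?_)
          have := mul_le_of_le_one_right hs0.le hy
          nlinarith [mul_le_mul_of_nonneg_left this (show (0 : ℝ) ≤ K * (d + 1) by positivity)]
        have b3 := mul_le_mul b2 hs.1.le (half_pos hr).le (by positivity)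
        rw [sq]; linarith
      rw [abs_mul, abs_mul, abs_mul, abs_two]
      exact mul_le_mul (mul_le_mul (mul_le_mul_of_nonneg_left a1 zero_le_two) a2 (abs_nonneg _)
        (by positivity)) (hkb y) (abs_nonneg _) (by positivity)
    · rw [indicator_of_notMem (by simpa using hy), hkout y (not_le.1 hy)]
      simp

theorem hasDerivAt_weiss (hB : Basics d) (h : LMin u) (h0 : u 0 = 0) {r : ℝ} (hr : 0 < r) :
    HasDerivAt (weiss u) ((r ^ d)⁻¹ / r * (2 * ∫ x, (eul u x - u x) ^ 2 * wK r x)) r := by
  obtain ⟨K, hK⟩ := h.lip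
  refine ((hasDerivAt_weissI hB h hr).sub (hasDerivAt_weissH hB h h0 hr)).congr_deriv ?_
  have hu : ∀ x : Pt d, ‖x‖ ≤ r → |u x| ≤ K * r := fun x hx => by
    have := hK.dist_le_mul x 0
    rw [h0, Real.dist_eq, sub_zero, dist_zero_right] at this
    exact this.trans (by gcongr)
  have he : ∀ x : Pt d, ‖x‖ ≤ r → |eul u x| ≤ K * (d * r) := fun x hx =>
    (abs_eul_le hK x).trans (by gcongr)
  have i1 : Integrable fun x => eul u x ^ 2 * wK r x :=
    integrable_mul_wK (M := (K * (d * r)) ^ 2) (measurable_eul.pow_const 2) hr fun x hx => by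
      rw [abs_pow]; exact pow_le_pow_left₀ (abs_nonneg _) (he x hx) 2
  have i2 : Integrable fun x => u x * eul u x * wK r x :=
    integrable_mul_wK (M := (K * r) * (K * (d * r))) (h.continuous.measurable.mul measurable_eul) hr
      fun x hx => by
        rw [Pi.mul_apply, abs_mul]; exact mul_le_mul (hu x hx) (he x hx) (abs_nonneg _) (by positivity)
  have i3 : Integrable fun x => u x * (eul u x - u x) * wK r x :=
    integrable_mul_wK (M := (K * r) * (K * (d * r) + K * r))
      (h.continuous.measurable.mul (measurable_eul.sub h.continuous.measurable)) hr fun x hx => by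
        rw [Pi.mul_apply, Pi.sub_apply, abs_mul]
        exact mul_le_mul (hu x hx) ((abs_sub _ _).trans (add_le_add (he x hx) (hu x hx)))
          (abs_nonneg _) (by positivity)
  have e : ∫ x, (eul u x - u x) ^ 2 * wK r x =
      (∫ x, eul u x ^ 2 * wK r x) - (∫ x, u x * eul u x * wK r x)
        - ∫ x, u x * (eul u x - u x) * wK r x := by
    rw [← integral_sub i1 i2,
      ← integral_sub (f := fun x => eul u x ^ 2 * wK r x - u x * eul u x * wK r x) (i1.sub i2) i3]
    exact integral_congr_ae (Eventually.of_forall fun x => by simp only; ring)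
  rw [e]
  ring

theorem weiss_mono (hB : Basics d) (h : LMin u) (h0 : u 0 = 0) : MonotoneOn (weiss u) (Ioi 0) := by
  refine monotoneOn_of_hasDerivWithinAt_nonneg (convex_Ioi 0)
    (fun r hr => (hasDerivAt_weiss hB h h0 hr).continuousAt.continuousWithinAt)
    (fun r hr => (hasDerivAt_weiss hB h h0 (by simpa using hr)).hasDerivWithinAt) fun r hr => ?_
  have hr' : (0 : ℝ) < r := by simpa using hr
  refine mul_nonneg (by positivity) (mul_nonneg zero_le_two (integral_nonneg fun x => ?_))
  exact mul_nonneg (sq_nonneg _) (wK_nonneg r x)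

end Vale.Agent.P098.Reg
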